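import Vale.Agent.P006.H9.Ident

/-!
P006, block H: final form of the strip inequalities for Eisenstein series.
All right-hand sides are integrals over the strip `P3 = (ℂ / 3 O) × (0, ∞)` of
`f (1 / v)` against an Eisenstein series, i.e. only constant terms at infinity enter.
-/

namespace Vale.Agent.P006.H9

open Matrix Complex ENNReal Set MeasureTheory

/-- strip inequality for an automorphic function of level `q`, at an arbitrary cusp `σ` -/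
theorem strip_aut {η : O → O → ℂ} (hη : RowChar η) {q : O} {F : H3 → ℂ} (hF : Measurable F)
    (hFa : Aut (Gam q) (chiOf η) F) (σ : SpecialLinearGroup (Fin 2) O) {v0 : ℝ} (hv0 : 0 < v0) :
    ∫⁻ w in Ptop v0, ‖F (σ • w)‖ₑ ^ 2 ∂muH
      ≤ ENNReal.ofReal (6400 * (1 + (v0 ^ 2)⁻¹)) * ∫⁻ w, ‖F w‖ₑ ^ 2 ∂(qB (Gam q)) :=
  strip_ineq (F := fun w => ‖F w‖ₑ ^ 2) (hF.enorm.pow_const 2) (fun g hg w => by
    have := hFa.norm_inv (hη.isChar q) g hg w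
    simp only [] at this ⊢
    rw [this]) σ hv0

variable {η : O → O → ℂ} (hη : RowChar η) {f : ℝ → ℂ} (hf : Measurable f)
  {A : ℝ} (hfd : Decay f A)

include hη hf hfd

/-- **(G*)** -/
theorem strip_E (σ : SpecialLinearGroup (Fin 2) O) {v0 : ℝ} (hv0 : 0 < v0) :
    ∫⁻ w in Ptop v0, ‖E 1 η f (σ • w)‖ₑ ^ 2 ∂muH
      ≤ ENNReal.ofReal (6400 * (1 + (v0 ^ 2)⁻¹)) * ENNReal.ofReal
        (∫ w in P3, f (1 / w.v) * (starRingEnd ℂ) (E 1 η f w) ∂muH).re := by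
  rw [← norm_E hη hf hfd 1]
  exact strip_aut hη (measurable_E 1 η hf) (E_aut hη 1 f) σ hv0

/-- **(G*p)** -/
theorem strip_Ediff {p : O} (hp : Prime p) (hp3 : IsCoprime (3 : O) p)
    (σ : SpecialLinearGroup (Fin 2) O) {v0 : ℝ} (hv0 : 0 < v0) :
    ∫⁻ w in Ptop v0, ‖Ediff p η f (σ • w)‖ₑ ^ 2 ∂muH
      ≤ ENNReal.ofReal (6400 * (1 + (v0 ^ 2)⁻¹)) * ENNReal.ofReal
        (∫ w in P3, f (1 / w.v) * (starRingEnd ℂ) (Ediff p η f w) ∂muH).re := by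
  rw [← norm_Ediff hη hf hfd hp hp3]
  exact strip_aut hη (measurable_Ediff hf p) (Ediff_aut hη p) σ hv0

/-- **(G*S)** -/
theorem strip_E_smul_sub {τ : SpecialLinearGroup (Fin 2) O}
    (hτ : ∀ g ∈ KU.Gamma3 O, chiOf η (τ * g * τ⁻¹) = chiOf η g)
    (σ : SpecialLinearGroup (Fin 2) O) {v0 : ℝ} (hv0 : 0 < v0) :
    ∫⁻ w in Ptop v0, ‖E 1 η f (τ • σ • w) - E 1 η f (σ • w)‖ₑ ^ 2 ∂muH
      ≤ ENNReal.ofReal (6400 * (1 + (v0 ^ 2)⁻¹)) * ENNReal.ofReal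
        (2 * (∫ w in P3, f (1 / w.v) *
          (starRingEnd ℂ) (E 1 η f w - E 1 η f (τ • w)) ∂muH).re) := by
  rw [← norm_E_smul_sub hη hf hfd hτ]
  exact strip_aut hη (F := fun w => E 1 η f (τ • w) - E 1 η f w)
    (((measurable_E 1 η hf).comp (measurable_const_smul τ)).sub (measurable_E 1 η hf))
    ((E_smul_aut hη hτ).sub (E_aut hη 1 f)) σ hv0

end Vale.Agent.P006.H9
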