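import Vale.Agent.P006.H9.Measure
import Mathlib.MeasureTheory.Group.FundamentalDomain
import Mathlib.MeasureTheory.Measure.Lebesgue.EqHaar
import Mathlib.Analysis.Complex.Basic

/-!
P006, block H: translations by `3 O`, the period parallelogram, and integration over the strip.
-/

namespace Vale.Agent.P006.H9

open Matrix Complex MeasureTheory ENNReal Set

/-- first coordinate with respect to the basis `(3, 3 ω)` -/
noncomputable def cx (z : ℂ) : ℝ := z.re / 3 + z.im / (3 * √3)

/-- second coordinate with respect to the basis `(3, 3 ω)` -/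
noncomputable def cy (z : ℂ) : ℝ := 2 * z.im / (3 * √3)

/-- the point with coordinates `(x, y)` with respect to `(3, 3 ω)` -/
noncomputable def pt (x y : ℝ) : ℂ := 3 * (x + y * omC)

theorem pt_re (x y : ℝ) : (pt x y).re = 3 * x - 3 * y / 2 := by
  simp [pt, omC]; ring

theorem pt_im (x y : ℝ) : (pt x y).im = 3 * √3 / 2 * y := by
  simp [pt, omC]; ring

theorem sqrt3_pos : (0 : ℝ) < √3 := Real.sqrt_pos.2 (by norm_num)

theorem cx_pt (x y : ℝ) : cx (pt x y) = x := by
  have := sqrt3_pos
  rw [cx, pt_re, pt_im]; field_simp; ring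

theorem cy_pt (x y : ℝ) : cy (pt x y) = y := by
  have := sqrt3_pos
  rw [cy, pt_im]; field_simp

theorem pt_cx_cy (z : ℂ) : pt (cx z) (cy z) = z := by
  have := sqrt3_pos
  apply Complex.ext
  · rw [pt_re, cx, cy]; field_simp; ring
  · rw [pt_im, cy]; field_simp

theorem cx_add (z w : ℂ) : cx (z + w) = cx z + cx w := by simp [cx]; ring

theorem cy_add (z w : ℂ) : cy (z + w) = cy z + cy w := by simp [cy]; ring

theorem cx_toC (x : O) : cx (toC x) = x.re / 3 := by
  have := sqrt3_pos
  rw [cx, toC_re, toC_im]; field_simp; ring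

theorem cy_toC (x : O) : cy (toC x) = x.im / 3 := by
  have := sqrt3_pos
  rw [cy, toC_im]; field_simp

@[fun_prop] theorem continuous_cx : Continuous cx := by unfold cx; fun_prop

@[fun_prop] theorem continuous_cy : Continuous cy := by unfold cy; fun_prop

theorem continuous_pt : Continuous (fun p : ℝ × ℝ => pt p.1 p.2) := by unfold pt; fun_prop

/-- the half-open period parallelogram of `3 O` -/
def box : Set ℂ := {z | (0 ≤ cx z ∧ cx z < 1) ∧ 0 ≤ cy z ∧ cy z < 1}

theorem measurableSet_box : MeasurableSet box := by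
  unfold box
  have h1 : Measurable cx := continuous_cx.measurable
  have h2 : Measurable cy := continuous_cy.measurable
  exact ((measurableSet_le measurable_const h1).inter (measurableSet_lt h1 measurable_const)).inter
    ((measurableSet_le measurable_const h2).inter (measurableSet_lt h2 measurable_const))

/-- the strip over the period parallelogram -/
def P3 : Set H3 := {w | w.z ∈ box}

theorem measurableSet_P3 : MeasurableSet P3 := H3.measurable_z measurableSet_box

/-- translations by `3 O` -/
def T3 : Subgroup (SpecialLinearGroup (Fin 2) O) where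
  carrier := {g | ∃ x : O, (3 : O) ∣ x ∧ g = KU.tr x}
  mul_mem' := by
    rintro g h ⟨x, hx, rfl⟩ ⟨y, hy, rfl⟩
    exact ⟨x + y, dvd_add hx hy, by rw [KU.tr_add]⟩
  one_mem' := ⟨0, dvd_zero _, by simp⟩
  inv_mem' := by
    rintro g ⟨x, hx, rfl⟩
    exact ⟨-x, (dvd_neg).2 hx, by rw [KU.tr_neg]⟩

theorem mem_T3 {g : SpecialLinearGroup (Fin 2) O} : g ∈ T3 ↔ ∃ m : O, g = KU.tr (3 * m) := by
  constructor
  · rintro ⟨x, ⟨m, rfl⟩, rfl⟩; exact ⟨m, rfl⟩
  · rintro ⟨m, rfl⟩; exact ⟨3 * m, Dvd.intro _ rfl, rfl⟩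

theorem tr_mem_T3 (m : O) : KU.tr (3 * m) ∈ T3 := mem_T3.2 ⟨m, rfl⟩

theorem T3_le : T3 ≤ KU.Gamma3 O := by
  rintro g ⟨x, hx, rfl⟩; exact KU.tr_mem.2 hx

theorem tr_inj {x y : O} (h : KU.tr x = KU.tr y) : x = y := by
  have := congrArg (fun g : SpecialLinearGroup (Fin 2) O => g 0 1) h
  simpa [KU.tr] using this

theorem toC_three_mul (m : O) : toC (3 * m) = 3 * toC m := by
  rw [map_mul]; congr 1; exact map_ofNat toC 3

theorem cx_three_mul (m : O) : cx (toC (3 * m)) = m.re := by
  rw [cx_toC]; simp [QuadraticAlgebra.re_mul]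
  have h1 : (3 : O).re = 3 := rfl
  have h2 : (3 : O).im = 0 := rfl
  rw [h1, h2]; push_cast; ring

theorem cy_three_mul (m : O) : cy (toC (3 * m)) = m.im := by
  rw [cy_toC]; simp [QuadraticAlgebra.im_mul]
  have h1 : (3 : O).re = 3 := rfl
  have h2 : (3 : O).im = 0 := rfl
  rw [h1, h2]; push_cast; ring

/-- every point has exactly one translate in the strip -/
theorem existsUnique_T3 (w : H3) : ∃! g : T3, g • w ∈ P3 := by
  have key : ∀ m : O, (⟨KU.tr (3 * m), tr_mem_T3 m⟩ : T3) • w ∈ P3 ↔
      m = ⟨-⌊cx w.z⌋, -⌊cy w.z⌋⟩ := by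
    intro m
    have e1 : (⟨KU.tr (3 * m), tr_mem_T3 m⟩ : T3) • w
        = H3.mk (w.z + toC (3 * m)) w.v w.v_pos := by
      rw [← tr_smul]; rfl
    rw [e1]
    show w.z + toC (3 * m) ∈ box ↔ _
    unfold box
    rw [mem_ofPred_eq, cx_add, cy_add, cx_three_mul, cy_three_mul]
    constructor
    · rintro ⟨⟨h1, h2⟩, h3, h4⟩
      apply QuadraticAlgebra.ext
      · show m.re = -⌊cx w.z⌋
        have : ⌊cx w.z⌋ = -m.re := by
          rw [Int.floor_eq_iff]; push_cast; constructor <;> linarith
        omega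
      · show m.im = -⌊cy w.z⌋
        have : ⌊cy w.z⌋ = -m.im := by
          rw [Int.floor_eq_iff]; push_cast; constructor <;> linarith
        omega
    · rintro rfl
      have h1 := Int.floor_le (cx w.z)
      have h2 := Int.lt_floor_add_one (cx w.z)
      have h3 := Int.floor_le (cy w.z)
      have h4 := Int.lt_floor_add_one (cy w.z)
      push_cast
      refine ⟨⟨?_, ?_⟩, ?_, ?_⟩ <;> linarith
  refine ⟨⟨KU.tr (3 * ⟨-⌊cx w.z⌋, -⌊cy w.z⌋⟩), tr_mem_T3 _⟩, (key _).2 rfl, ?_⟩
  rintro ⟨g, hg⟩ h
  obtain ⟨m, rfl⟩ := mem_T3.1 hg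
  have := (key m).1 h
  rw [Subtype.mk.injEq, this]

instance countable_O : Countable O := by
  have : Function.Injective (fun x : O => (x.re, x.im)) := by
    intro x y h
    simp only [Prod.mk.injEq] at h
    exact QuadraticAlgebra.ext h.1 h.2
  exact this.countable

instance countable_SL : Countable (SpecialLinearGroup (Fin 2) O) := by
  have : Function.Injective (fun g : SpecialLinearGroup (Fin 2) O =>
      ((g 0 0, g 0 1), (g 1 0, g 1 1))) := by
    intro g h e
    simp only [Prod.mk.injEq] at e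
    exact KU.ext2 e.1.1 e.1.2 e.2.1 e.2.2
  exact this.countable

/-- the strip is a fundamental domain of the group of translations by `3 O` -/
theorem isFundamentalDomain_P3 : IsFundamentalDomain T3 P3 muH :=
  IsFundamentalDomain.mk' measurableSet_P3.nullMeasurableSet existsUnique_T3

/-! ### integration over the strip -/

/-- the linear bijection `(x, y) ↦ 3 (x + y ω)` -/
noncomputable def boxEquiv : (ℝ × ℝ) ≃ₜ ℂ where
  toFun p := pt p.1 p.2
  invFun z := (cx z, cy z)
  left_inv p := by simp [cx_pt, cy_pt]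
  right_inv z := pt_cx_cy z
  continuous_toFun := continuous_pt
  continuous_invFun := continuous_cx.prodMk continuous_cy

/-- area of the period parallelogram -/
noncomputable def area : ℝ := 9 * √3 / 2

theorem area_pos : 0 < area := by unfold area; have := sqrt3_pos; positivity

theorem map_boxEquiv : Measure.map boxEquiv volume = ENNReal.ofReal area⁻¹ • (volume : Measure ℂ) := by
  let L : ℂ →ₗ[ℝ] ℂ := Complex.basisOneI.constr ℝ ![(3 : ℂ), 3 * omC]
  have hL : ∀ z : ℂ, L z = pt z.re z.im := by
    intro z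
    simp [L, Module.Basis.constr_apply_fintype, pt]
    ring
  have hdet : LinearMap.det L = area := by
    rw [← LinearMap.det_toMatrix Complex.basisOneI, Matrix.det_fin_two]
    simp [LinearMap.toMatrix_apply, hL, pt_re, pt_im, area]
    ring
  have h1 : (boxEquiv : ℝ × ℝ → ℂ) = L ∘ Complex.measurableEquivRealProd.symm := by
    ext p
    simp only [Function.comp, hL]
    rfl
  have hLm : Measurable L := L.continuous_of_finiteDimensional.measurable
  rw [h1, ← Measure.map_map hLm Complex.measurableEquivRealProd.symm.measurable,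
    Complex.volume_preserving_equiv_real_prod.symm.map_eq,
    Measure.map_linearMap_addHaar_eq_smul_addHaar volume (by rw [hdet]; exact area_pos.ne'), hdet,
    abs_of_pos (inv_pos.2 area_pos)]

theorem preimage_box : boxEquiv ⁻¹' box = Ico (0 : ℝ) 1 ×ˢ Ico (0 : ℝ) 1 := by
  ext p
  simp only [mem_preimage, box, mem_ofPred_eq, mem_prod, mem_Ico]
  show ((0 ≤ cx (pt p.1 p.2) ∧ _) ∧ _) ↔ _
  have h1 : cx (boxEquiv p) = p.1 := cx_pt _ _
  have h2 : cy (boxEquiv p) = p.2 := cy_pt _ _
  rw [cx_pt, h1, h2]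

/-- integrals over the period parallelogram in coordinates -/
theorem lintegral_box (f : ℂ → ℝ≥0∞) :
    ∫⁻ z in box, f z
      = ENNReal.ofReal area * ∫⁻ p in Ico (0 : ℝ) 1 ×ˢ Ico (0 : ℝ) 1, f (pt p.1 p.2) := by
  have h1 : (volume : Measure ℂ) = ENNReal.ofReal area • Measure.map boxEquiv volume := by
    rw [map_boxEquiv, smul_smul, ← ENNReal.ofReal_mul area_pos.le, mul_inv_cancel₀ area_pos.ne']
    simp
  rw [h1, Measure.restrict_smul, lintegral_smul_measure,
    boxEquiv.measurableEmbedding.restrict_map, boxEquiv.measurableEmbedding.lintegral_map,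
    preimage_box]
  rfl

theorem integral_box {E : Type*} [NormedAddCommGroup E] [NormedSpace ℝ E] (f : ℂ → E) :
    ∫ z in box, f z = area • ∫ p in Ico (0 : ℝ) 1 ×ˢ Ico (0 : ℝ) 1, f (pt p.1 p.2) := by
  have h1 : (volume : Measure ℂ) = ENNReal.ofReal area • Measure.map boxEquiv volume := by
    rw [map_boxEquiv, smul_smul, ← ENNReal.ofReal_mul area_pos.le, mul_inv_cancel₀ area_pos.ne']
    simp
  rw [h1, Measure.restrict_smul, integral_smul_measure, ENNReal.toReal_ofReal area_pos.le,
    boxEquiv.measurableEmbedding.restrict_map, boxEquiv.measurableEmbedding.integral_map,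
    preimage_box]
  rfl

theorem volume_box : (volume : Measure ℂ) box = ENNReal.ofReal area := by
  have := lintegral_box (fun _ => 1)
  rw [lintegral_one, Measure.restrict_apply_univ] at this
  rw [this]
  simp [Measure.volume_eq_prod]

theorem lintegral_P3 {F : H3 → ℝ≥0∞} (hF : Measurable F) :
    ∫⁻ w in P3, F w ∂muH =
      ∫⁻ v in Ioi (0 : ℝ), ENNReal.ofReal ((v ^ 3)⁻¹) * ∫⁻ z in box, F (H3.of z v) := by
  rw [← lintegral_indicator measurableSet_P3, lintegral_muH (hF.indicator measurableSet_P3)]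
  refine setLIntegral_congr_fun measurableSet_Ioi fun v hv => ?_
  congr 1
  rw [← lintegral_indicator measurableSet_box]
  refine lintegral_congr fun z => ?_
  by_cases hz : z ∈ box
  · rw [indicator_of_mem hz, indicator_of_mem (show H3.of z v ∈ P3 by simpa [P3] using hz)]
  · rw [indicator_of_notMem hz, indicator_of_notMem (show H3.of z v ∉ P3 by simpa [P3] using hz)]

theorem restrict_P3 :
    muH.restrict P3 = ((volume.restrict box).prod nuV).map (fun p : ℂ × ℝ => H3.of p.1 p.2) := by
  rw [muH, Measure.restrict_map H3.measurable_of measurableSet_P3]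
  have : (fun p : ℂ × ℝ => H3.of p.1 p.2) ⁻¹' P3 = box ×ˢ univ := by
    ext p; simp [P3]
  rw [this, ← Measure.prod_restrict, Measure.restrict_univ]

/-- Bochner integral over the strip -/
theorem integral_P3 {F : H3 → ℂ} (hF : Integrable F (muH.restrict P3)) :
    ∫ w in P3, F w ∂muH =
      ∫ v in Ioi (0 : ℝ), (((v ^ 3)⁻¹ : ℝ) : ℂ) * ∫ z in box, F (H3.of z v) := by
  rw [restrict_P3] at hF ⊢
  rw [integral_map H3.measurable_of.aemeasurable hF.1]
  have h2 : Integrable (fun p : ℂ × ℝ => F (H3.of p.1 p.2)) ((volume.restrict box).prod nuV) :=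
    hF.comp_measurable H3.measurable_of
  rw [integral_prod_symm _ h2, nuV, integral_withDensity_eq_integral_toReal_smul (by fun_prop)
    (Filter.Eventually.of_forall fun v => ENNReal.ofReal_lt_top)]
  refine setIntegral_congr_fun measurableSet_Ioi fun v hv => ?_
  have hv' : 0 < v := hv
  simp only []
  rw [ENNReal.toReal_ofReal (by positivity), real_smul]

end Vale.Agent.P006.H9
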