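import Vale.Agent.P006.H9.Gam
import Mathlib.Analysis.SpecialFunctions.Pow.Real
import Mathlib.MeasureTheory.Function.L1Space.Integrable
import Mathlib.Analysis.SpecialFunctions.ImproperIntegrals

/-!
P006, block H: the incomplete Eisenstein series
`E q η f w = ∑_{(c, d) ∈ PP q} η c d * f (Q w c d)` on `H3`, automorphy, absolute convergence,
unfolding, and the three norm identities used by the Gram form.
-/

namespace Vale.Agent.P006.H9

open Matrix Complex ENNReal Set MeasureTheory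

/-- a function of the bottom row that is a unitary character on `Γ(3)` -/
structure RowChar (η : O → O → ℂ) : Prop where
  mul : ∀ g ∈ KU.Gamma3 O, ∀ h ∈ KU.Gamma3 O,
    η ((g * h) 1 0) ((g * h) 1 1) = η (g 1 0) (g 1 1) * η (h 1 0) (h 1 1)
  norm : ∀ g ∈ KU.Gamma3 O, ‖η (g 1 0) (g 1 1)‖ = 1

/-- the automorphy factor of `E q η f` -/
noncomputable def chiOf (η : O → O → ℂ) (g : SpecialLinearGroup (Fin 2) O) : ℂ :=
  (starRingEnd ℂ) (η (g 1 0) (g 1 1))

theorem RowChar.isChar {η : O → O → ℂ} (h : RowChar η) (q : O) : IsChar (Gam q) (chiOf η) where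
  mul g hg g' hg' := by rw [chiOf, h.mul g hg.1 g' hg'.1, map_mul]; rfl
  norm g hg := by rw [chiOf, RCLike.norm_conj, h.norm g hg.1]

theorem RowChar.one {η : O → O → ℂ} (h : RowChar η) : η 0 1 = 1 := by
  have h1 := h.mul 1 (Subgroup.one_mem _) 1 (Subgroup.one_mem _)
  have h2 := h.norm 1 (Subgroup.one_mem _)
  have e1 : (1 : SpecialLinearGroup (Fin 2) O) 1 0 = 0 := by simp
  have e2 : (1 : SpecialLinearGroup (Fin 2) O) 1 1 = 1 := by simp
  rw [mul_one, e1, e2] at h1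
  rw [e1, e2] at h2
  have h3 : η 0 1 ≠ 0 := by
    intro h0; rw [h0] at h2; simp at h2
  exact mul_left_cancel₀ h3 (by rw [mul_one]; exact h1.symm)

theorem RowChar.T3 {η : O → O → ℂ} (h : RowChar η) : ∀ t ∈ T3, chiOf η t = 1 := by
  rintro t ⟨x, _, rfl⟩
  have e1 : KU.tr x 1 0 = 0 := by simp [KU.tr]
  have e2 : KU.tr x 1 1 = 1 := by simp [KU.tr]
  rw [chiOf, e1, e2, h.one, map_one]

theorem RowChar.norm_row {η : O → O → ℂ} (h : RowChar η) {q : O} (p : PP q) :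
    ‖η p.1.1 p.1.2‖ = 1 := by
  have := h.norm (rrep q p) (rrep_mem p).1
  rwa [rrep_10, rrep_11] at this

theorem RowChar.conj {η : O → O → ℂ} (h : RowChar η) :
    RowChar (fun c d => (starRingEnd ℂ) (η c d)) where
  mul g hg g' hg' := by rw [h.mul g hg g' hg', map_mul]
  norm g hg := by rw [RCLike.norm_conj, h.norm g hg]

/-- the incomplete Eisenstein series -/
noncomputable def E (q : O) (η : O → O → ℂ) (f : ℝ → ℂ) (w : H3) : ℂ :=
  ∑' p : PP q, η p.1.1 p.1.2 * f (Q w (toC p.1.1) (toC p.1.2))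

theorem E_eq (q : O) (η : O → O → ℂ) (f : ℝ → ℂ) :
    E q η f = Eis (rrep q) (chiOf η) (fun w => f (1 / w.v)) := by
  ext w
  rw [E, Eis]
  refine tsum_congr fun p => ?_
  rw [v_rrep_smul, one_div_one_div, chiOf, rrep_10, rrep_11, Complex.conj_conj]

theorem inv_T3_v {β : Type*} (f : ℝ → β) : Inv T3 (fun w : H3 => f w.v) := by
  rintro t ⟨x, _, rfl⟩ w
  simp only []
  rw [tr_smul, H3.mk_v]

theorem E_aut {η : O → O → ℂ} (hη : RowChar η) (q : O) (f : ℝ → ℂ) :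
    Aut (Gam q) (chiOf η) (E q η f) := by
  rw [E_eq]
  exact Eis_aut (isTransversal_rrep q) (hη.isChar q) hη.T3 (inv_T3_v fun v => f (1 / v))

@[fun_prop]
theorem measurable_E (q : O) (η : O → O → ℂ) {f : ℝ → ℂ} (hf : Measurable f) :
    Measurable (E q η f) := by
  rw [E_eq]
  exact measurable_Eis (isTransversal_rrep q) _ (hf.comp (by fun_prop))

/-- **unfolding**: `⟨E_f, F⟩ = ∫_P f(1/v) conj F dμ` -/
theorem unfold_E {η : O → O → ℂ} (hη : RowChar η) {q : O} {f : ℝ → ℂ} (hf : Measurable f)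
    {F : H3 → ℂ} (hF : Measurable F) (hFa : Aut (Gam q) (chiOf η) F)
    (hint : Integrable (fun w => f (1 / w.v) * (starRingEnd ℂ) (F w)) (muH.restrict P3)) :
    Integrable (fun w => E q η f w * (starRingEnd ℂ) (F w)) (qB (Gam q)) ∧
    ∫ w, E q η f w * (starRingEnd ℂ) (F w) ∂(qB (Gam q))
      = ∫ w in P3, f (1 / w.v) * (starRingEnd ℂ) (F w) ∂muH := by
  rw [E_eq]
  exact unfold_Eis isBase_baseK (isTransversal_rrep q) isFundamentalDomain_P3 hη.T3
    (hf.comp (by fun_prop)) (inv_T3_v fun v => f (1 / v)) hF hFa hint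

/-! ### absolute convergence -/

theorem tsum_rows_le (q : O) (w : H3) {Y : ℝ} :
    ∑' p : PP q, (if Q w (toC p.1.1) (toC p.1.2) ≤ Y then (1 : ℝ≥0∞) else 0)
      ≤ ENNReal.ofReal (6 + 256 * Y ^ 2) := by
  classical
  have h := tsum_indicator_le {p : PP q | Q w (toC p.1.1) (toC p.1.2) ≤ Y}
    (C := 6 + 256 * Y ^ 2) fun S hS => ?_
  · refine le_trans (le_of_eq (tsum_congr fun p => ?_)) h
    by_cases hp : Q w (toC p.1.1) (toC p.1.2) ≤ Y
    · rw [if_pos hp, indicator_of_mem (by exact hp)]; rfl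
    · rw [if_neg hp, indicator_of_notMem (by exact hp)]
  · have h1 := card_rows_le w (Y := Y) (S.map (Function.Embedding.subtype _)) fun p hp => by
      obtain ⟨p', hp', rfl⟩ := Finset.mem_map.1 hp
      exact ⟨p'.2.1, hS p' hp'⟩
    rwa [Finset.card_map] at h1

/-- the constant in the uniform bound for `∑ (1 + Q)⁻³` -/
noncomputable def rowC : ℝ≥0∞ :=
  ∑' k : ℕ, ENNReal.ofReal ((8 : ℝ) ^ k)⁻¹ * ENNReal.ofReal (6 + 256 * ((2 : ℝ) ^ (k + 1)) ^ 2)

theorem rowC_ne_top : rowC ≠ ∞ := by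
  have h : Summable fun k : ℕ => ((8 : ℝ) ^ k)⁻¹ * (6 + 256 * ((2 : ℝ) ^ (k + 1)) ^ 2) := by
    have h1 : Summable fun k : ℕ => 6 * ((1 / 8 : ℝ)) ^ k + 1024 * ((1 / 2 : ℝ)) ^ k :=
      ((summable_geometric_of_lt_one (by norm_num) (by norm_num)).mul_left 6).add
        ((summable_geometric_of_lt_one (by norm_num) (by norm_num)).mul_left 1024)
    refine h1.congr fun k => ?_
    have e1 : ((2 : ℝ) ^ (k + 1)) ^ 2 = 4 * 4 ^ k := by
      rw [← pow_mul, mul_comm (k + 1) 2, pow_mul, pow_succ]; norm_num; ring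
    have e2 : ((8 : ℝ) ^ k)⁻¹ = (1 / 8) ^ k := by rw [one_div, inv_pow]
    have e3 : (1 / 2 : ℝ) ^ k = (1 / 8) ^ k * 4 ^ k := by rw [← mul_pow]; norm_num
    rw [e1, e2, e3]; ring
  rw [rowC]
  have e : ∀ k : ℕ, ENNReal.ofReal ((8 : ℝ) ^ k)⁻¹ *
      ENNReal.ofReal (6 + 256 * ((2 : ℝ) ^ (k + 1)) ^ 2)
      = ENNReal.ofReal (((8 : ℝ) ^ k)⁻¹ * (6 + 256 * ((2 : ℝ) ^ (k + 1)) ^ 2)) := fun k =>
    (ENNReal.ofReal_mul (by positivity)).symm
  simp only [e]
  exact h.tsum_ofReal_ne_top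

/-- `∑_{(c,d) ∈ PP q} (1 + Q w c d)⁻³ ≤ rowC`, uniformly in `w` and `q` -/
theorem tsum_rows_decay (q : O) (w : H3) :
    ∑' p : PP q, ENNReal.ofReal (((1 + Q w (toC p.1.1) (toC p.1.2)) ^ 3)⁻¹) ≤ rowC := by
  have h1 : ∀ p : PP q, ENNReal.ofReal (((1 + Q w (toC p.1.1) (toC p.1.2)) ^ 3)⁻¹)
      ≤ ∑' k : ℕ, ENNReal.ofReal ((8 : ℝ) ^ k)⁻¹ *
        (if Q w (toC p.1.1) (toC p.1.2) ≤ 2 ^ (k + 1) then (1 : ℝ≥0∞) else 0) := by
    intro p
    set x := Q w (toC p.1.1) (toC p.1.2) with hx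
    have hx0 : 0 ≤ x := Q_nonneg _ _ _
    obtain ⟨k, hk1, hk2⟩ := exists_nat_pow_near (show (1 : ℝ) ≤ 1 + x by linarith)
      (show (1 : ℝ) < 2 by norm_num)
    refine le_trans ?_ (ENNReal.le_tsum k)
    rw [if_pos (by linarith), mul_one]
    apply ENNReal.ofReal_le_ofReal
    have h8 : (8 : ℝ) ^ k = (2 ^ k) ^ 3 := by
      rw [← pow_mul, mul_comm, pow_mul]; norm_num
    rw [h8]
    gcongr
  refine (ENNReal.tsum_le_tsum h1).trans ?_
  rw [ENNReal.tsum_comm]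
  refine ENNReal.tsum_le_tsum fun k => ?_
  rw [ENNReal.tsum_mul_left]
  exact mul_le_mul_right (tsum_rows_le q w) _

/-- the class of functions with decay `(1 + x)⁻³` -/
def Decay (f : ℝ → ℂ) (A : ℝ) : Prop := ∀ x, 0 < x → ‖f x‖ ≤ A * ((1 + x) ^ 3)⁻¹

theorem Decay.nonneg {f : ℝ → ℂ} {A : ℝ} (h : Decay f A) : 0 ≤ A := by
  have h1 := (norm_nonneg _).trans (h 1 one_pos)
  norm_num at h1
  linarith

theorem row_ne_zero' {q : O} (p : PP q) : toC p.1.2 ≠ 0 := by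
  rw [Ne, toC_eq_zero]
  intro h
  obtain ⟨-, -, -, h4⟩ := p.2
  rw [h, zero_sub, dvd_neg] at h4
  have h5 := N_dvd_N h4
  simp only [N_one] at h5
  have h6 : N (3 : O) = 9 := by decide
  rw [h6] at h5
  omega

theorem Q_row_pos {q : O} (p : PP q) (w : H3) : 0 < Q w (toC p.1.1) (toC p.1.2) :=
  Q_pos (Or.inr (row_ne_zero' p))

theorem tsum_enorm_rows_le {f : ℝ → ℂ} {A : ℝ} (h : Decay f A) (q : O) (w : H3) :
    ∑' p : PP q, ‖f (Q w (toC p.1.1) (toC p.1.2))‖ₑ ≤ ENNReal.ofReal A * rowC := by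
  have h1 : ∀ p : PP q, ‖f (Q w (toC p.1.1) (toC p.1.2))‖ₑ
      ≤ ENNReal.ofReal A * ENNReal.ofReal (((1 + Q w (toC p.1.1) (toC p.1.2)) ^ 3)⁻¹) := by
    intro p
    rw [← ENNReal.ofReal_mul h.nonneg, ← ofReal_norm]
    exact ENNReal.ofReal_le_ofReal (h _ (Q_row_pos p w))
  refine (ENNReal.tsum_le_tsum h1).trans ?_
  rw [ENNReal.tsum_mul_left]
  exact mul_le_mul_right (tsum_rows_decay q w) _

theorem summable_E {η : O → O → ℂ} (hη : RowChar η) {f : ℝ → ℂ} {A : ℝ} (h : Decay f A) (q : O)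
    (w : H3) : Summable fun p : PP q => η p.1.1 p.1.2 * f (Q w (toC p.1.1) (toC p.1.2)) := by
  have h1 : ∑' p : PP q, ‖f (Q w (toC p.1.1) (toC p.1.2))‖ₑ ≠ ∞ :=
    ne_top_of_le_ne_top (ENNReal.mul_ne_top ENNReal.ofReal_ne_top rowC_ne_top)
      (tsum_enorm_rows_le h q w)
  have h2 : Summable fun p : PP q => ‖f (Q w (toC p.1.1) (toC p.1.2))‖ := by
    have := ENNReal.summable_toReal h1
    simpa using this
  refine Summable.of_norm ?_
  refine h2.congr fun p => ?_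
  rw [norm_mul, hη.norm_row p, one_mul]

theorem enorm_E_le {η : O → O → ℂ} (hη : RowChar η) {f : ℝ → ℂ} {A : ℝ} (h : Decay f A) (q : O)
    (w : H3) : ‖E q η f w‖ₑ ≤ ENNReal.ofReal A * rowC := by
  refine le_trans enorm_tsum_le_tsum_enorm (le_trans (le_of_eq ?_) (tsum_enorm_rows_le h q w))
  refine tsum_congr fun p => ?_
  rw [enorm_mul, ← ofReal_norm (η _ _), hη.norm_row p, ENNReal.ofReal_one, one_mul]

theorem norm_E_le {η : O → O → ℂ} (hη : RowChar η) {f : ℝ → ℂ} {A : ℝ} (h : Decay f A) (q : O)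
    (w : H3) : ‖E q η f w‖ ≤ A * rowC.toReal := by
  have h1 := enorm_E_le hη h q w
  have h2 := ENNReal.toReal_mono (ENNReal.mul_ne_top ENNReal.ofReal_ne_top rowC_ne_top) h1
  rwa [toReal_enorm, ENNReal.toReal_mul, ENNReal.toReal_ofReal h.nonneg] at h2

theorem lintegral_fv {f : ℝ → ℝ≥0∞} (hf : Measurable f) :
    ∫⁻ w in P3, f w.v ∂muH
      = ENNReal.ofReal area * ∫⁻ v in Ioi (0 : ℝ), ENNReal.ofReal ((v ^ 3)⁻¹) * f v := by
  rw [lintegral_P3 (F := fun w => f w.v) (hf.comp H3.measurable_v),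
    ← lintegral_const_mul _ (by fun_prop)]
  refine setLIntegral_congr_fun measurableSet_Ioi fun v hv => ?_
  have hv' : 0 < v := hv
  have : ∀ z, (H3.of z v).v = v := fun z => H3.of_v hv'
  simp only [this]
  rw [lintegral_const, Measure.restrict_apply_univ, volume_box]
  ring

/-- `dv / v³` in the variable `x = 1 / v` is `x dx` -/
theorem lintegral_inv_var (h : ℝ → ℝ≥0∞) :
    ∫⁻ v in Ioi (0 : ℝ), ENNReal.ofReal ((v ^ 3)⁻¹) * h (1 / v)
      = ∫⁻ x in Ioi (0 : ℝ), ENNReal.ofReal x * h x := by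
  have h1 := lintegral_inv one_pos (fun x => ENNReal.ofReal (x ^ 2) * h x)
  have e1 : ∫⁻ v in Ioi (0 : ℝ), ENNReal.ofReal ((v ^ 3)⁻¹) * h (1 / v)
      = ∫⁻ v in Ioi (0 : ℝ), ENNReal.ofReal v⁻¹ * (ENNReal.ofReal ((1 / v) ^ 2) * h (1 / v)) := by
    refine setLIntegral_congr_fun measurableSet_Ioi fun v hv => ?_
    have hv' : 0 < v := hv
    rw [← mul_assoc, ← ENNReal.ofReal_mul (by positivity)]
    congr 2
    field_simp
  rw [e1, h1]
  refine setLIntegral_congr_fun measurableSet_Ioi fun v hv => ?_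
  have hv' : 0 < v := hv
  rw [← mul_assoc, ← ENNReal.ofReal_mul (le_of_lt (by positivity))]
  congr 2
  field_simp

theorem lintegral_decay_ne_top :
    ∫⁻ x in Ioi (0 : ℝ), ENNReal.ofReal x * ENNReal.ofReal (((1 + x) ^ 3)⁻¹) ≠ ∞ := by
  have h1 : ∫⁻ x in Ioi (0 : ℝ), ENNReal.ofReal ((1 + x ^ 2)⁻¹) ≠ ∞ := by
    have h := (integrable_inv_one_add_sq.restrict (s := Ioi (0 : ℝ))).2
    rw [hasFiniteIntegral_iff_ofReal (Filter.Eventually.of_forall fun x => by positivity)] at h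
    exact h.ne
  refine ne_top_of_le_ne_top h1 (setLIntegral_mono (by fun_prop) fun x hx => ?_)
  have hx' : 0 < x := hx
  rw [← ENNReal.ofReal_mul hx'.le]
  apply ENNReal.ofReal_le_ofReal
  rw [← div_eq_mul_inv, div_le_iff₀ (by positivity), inv_mul_eq_div, le_div_iff₀ (by positivity)]
  nlinarith [pow_pos hx' 2, pow_pos hx' 3]

theorem integrable_decay {f : ℝ → ℂ} (hf : Measurable f) {A : ℝ} (hd : Decay f A) {F : H3 → ℂ}
    (hF : Measurable F) {M : ℝ} (hM : ∀ w, ‖F w‖ ≤ M) :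
    Integrable (fun w => f (1 / w.v) * (starRingEnd ℂ) (F w)) (muH.restrict P3) := by
  have hfm : Measurable fun w : H3 => f (1 / w.v) := hf.comp (by fun_prop)
  have hFm : Measurable fun w => (starRingEnd ℂ) (F w) := Complex.continuous_conj.measurable.comp hF
  have h0 : 0 ≤ M := (norm_nonneg _).trans (hM (H3.of 0 1))
  refine ⟨(hfm.mul hFm).aestronglyMeasurable, ?_⟩
  rw [HasFiniteIntegral]
  have h1 : ∀ w : H3, ‖f (1 / w.v) * (starRingEnd ℂ) (F w)‖ₑ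
      ≤ ENNReal.ofReal (A * M) * ENNReal.ofReal (((1 + 1 / w.v) ^ 3)⁻¹) := by
    intro w
    have hv := w.v_pos
    have e := hd (1 / w.v) (by positivity)
    have h3 : 0 ≤ A * M := mul_nonneg hd.nonneg h0
    rw [← ofReal_norm, ← ENNReal.ofReal_mul h3]
    apply ENNReal.ofReal_le_ofReal
    rw [norm_mul, RCLike.norm_conj]
    calc ‖f (1 / w.v)‖ * ‖F w‖ ≤ (A * ((1 + 1 / w.v) ^ 3)⁻¹) * M :=
          mul_le_mul e (hM w) (norm_nonneg _) ((norm_nonneg _).trans e)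
      _ = A * M * ((1 + 1 / w.v) ^ 3)⁻¹ := by ring
  refine lt_of_le_of_lt (lintegral_mono h1) ?_
  rw [lintegral_const_mul _ (by fun_prop)]
  refine ENNReal.mul_lt_top ENNReal.ofReal_lt_top (lt_top_iff_ne_top.2 ?_)
  rw [lintegral_fv (f := fun v => ENNReal.ofReal (((1 + 1 / v) ^ 3)⁻¹)) (by fun_prop),
    lintegral_inv_var (fun x => ENNReal.ofReal (((1 + x) ^ 3)⁻¹))]
  exact ENNReal.mul_ne_top ENNReal.ofReal_ne_top lintegral_decay_ne_top

/-! ### norm identities -/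

theorem lintegral_enorm_sq {X : Type*} [MeasurableSpace X] {m : Measure X} {F : X → ℂ}
    (h : Integrable (fun w => F w * (starRingEnd ℂ) (F w)) m) :
    ∫⁻ w, ‖F w‖ₑ ^ 2 ∂m = ENNReal.ofReal (∫ w, F w * (starRingEnd ℂ) (F w) ∂m).re := by
  have e1 : (fun w => F w * (starRingEnd ℂ) (F w)) = fun w => ((‖F w‖ ^ 2 : ℝ) : ℂ) := by
    ext w; rw [Complex.mul_conj, normSq_eq_norm_sq]
  have h2 : Integrable (fun w => ‖F w‖ ^ 2) m := by
    rw [e1] at h
    exact h.re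
  have e2 : (∫ w, F w * (starRingEnd ℂ) (F w) ∂m).re = ∫ w, ‖F w‖ ^ 2 ∂m := by
    have := integral_ofReal (μ := m) (f := fun w => ‖F w‖ ^ 2) (𝕜 := ℂ)
    rw [e1]
    simpa using congrArg Complex.re this
  rw [e2, ofReal_integral_eq_lintegral_ofReal h2 (Filter.Eventually.of_forall fun w => by positivity)]
  refine lintegral_congr fun w => ?_
  rw [ENNReal.ofReal_pow (norm_nonneg _), ofReal_norm]

section identities

variable {η : O → O → ℂ} (hη : RowChar η) {f g : ℝ → ℂ} (hf : Measurable f) (hg : Measurable g)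
  {A A' : ℝ} (hfd : Decay f A) (hgd : Decay g A')

include hη hf hg hfd hgd in
/-- `⟨E_f, E_g⟩ = ∫_P f(1/v) conj E_g dμ` -/
theorem inner_E (q : O) :
    Integrable (fun w => E q η f w * (starRingEnd ℂ) (E q η g w)) (qB (Gam q)) ∧
    ∫ w, E q η f w * (starRingEnd ℂ) (E q η g w) ∂(qB (Gam q))
      = ∫ w in P3, f (1 / w.v) * (starRingEnd ℂ) (E q η g w) ∂muH :=
  unfold_E hη hf (measurable_E q η hg) (E_aut hη q g)
    (integrable_decay hf hfd (measurable_E q η hg) (norm_E_le hη hgd q))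

include hη hf hfd in
/-- **(G-id)** -/
theorem norm_E (q : O) :
    ∫⁻ w, ‖E q η f w‖ₑ ^ 2 ∂(qB (Gam q))
      = ENNReal.ofReal (∫ w in P3, f (1 / w.v) * (starRingEnd ℂ) (E q η f w) ∂muH).re := by
  obtain ⟨h1, h2⟩ := inner_E hη hf hf hfd hfd q
  rw [lintegral_enorm_sq h1, h2]

end identities

end Vale.Agent.P006.H9
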