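import Vale.Agent.P006.H9.Strip
import Vale.Agent.P006.CR.Residue
import Mathlib.Data.Int.Interval
import Mathlib.Algebra.Order.Round
import Mathlib.Data.Set.Card

/-!
P006, block H: lattice point counts: coprime rows `(c, d)` with `Q w c d ≤ Y`, and the covering
number of the strip under `SL₂(O)`.
-/

namespace Vale.Agent.P006.H9

open Matrix Complex ENNReal Set

/-- number of integers in a set of diameter at most `2 s` -/
theorem card_int_le {a s : ℝ} (hs : 0 ≤ s) (S : Finset ℤ) (hS : ∀ n ∈ S, |(n : ℝ) - a| ≤ s) :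
    (S.card : ℝ) ≤ 2 * s + 1 := by
  have h1 : S ⊆ Finset.Icc ⌈a - s⌉ ⌊a + s⌋ := by
    intro n hn
    have h := abs_le.1 (hS n hn)
    rw [Finset.mem_Icc, Int.ceil_le, Int.le_floor]
    constructor <;> linarith [h.1, h.2]
  have h2 := Finset.card_le_card h1
  rw [Int.card_Icc] at h2
  have h3 : (⌊a + s⌋ : ℝ) ≤ a + s := Int.floor_le _
  have h4 : a - s ≤ (⌈a - s⌉ : ℝ) := Int.le_ceil _
  have h5 : ((⌊a + s⌋ + 1 - ⌈a - s⌉).toNat : ℝ) ≤ 2 * s + 1 := by
    have h6 : (((⌊a + s⌋ + 1 - ⌈a - s⌉).toNat : ℤ) : ℝ)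
        = ((max (⌊a + s⌋ + 1 - ⌈a - s⌉) 0 : ℤ) : ℝ) := by
      rw [Int.toNat_eq_max]
    have h7 : ((⌊a + s⌋ + 1 - ⌈a - s⌉).toNat : ℝ)
        = ((max (⌊a + s⌋ + 1 - ⌈a - s⌉) 0 : ℤ) : ℝ) := by exact_mod_cast h6
    rw [h7]
    push_cast
    exact max_le (by linarith) (by linarith)
  calc (S.card : ℝ) ≤ ((⌊a + s⌋ + 1 - ⌈a - s⌉).toNat : ℝ) := by exact_mod_cast h2
    _ ≤ 2 * s + 1 := h5

/-- number of Eisenstein integers in a disc -/
theorem card_disc {z0 : ℂ} {R : ℝ} (hR : 0 ≤ R) (S : Finset O)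
    (hS : ∀ x ∈ S, normSq (toC x - z0) ≤ R) : (S.card : ℝ) ≤ 8 * (1 + R) := by
  classical
  have h3 := sqrt3_pos
  have h33 : √3 * √3 = 3 := Real.mul_self_sqrt (by norm_num)
  have hsR : √R * √R = R := Real.mul_self_sqrt hR
  have hsR0 := Real.sqrt_nonneg R
  -- imaginary and real parts
  have him : ∀ x ∈ S, |(x.im : ℝ) * (√3 / 2) - z0.im| ≤ √R := by
    intro x hx
    have := hS x hx
    rw [normSq_apply, sub_re, sub_im, toC_im] at this
    apply Real.le_sqrt_of_sq_le
    rw [sq_abs]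
    nlinarith [mul_self_nonneg ((toC x).re - z0.re)]
  have hre : ∀ x ∈ S, |(x.re : ℝ) - x.im / 2 - z0.re| ≤ √R := by
    intro x hx
    have := hS x hx
    rw [normSq_apply, sub_re, sub_im, toC_re] at this
    apply Real.le_sqrt_of_sq_le
    rw [sq_abs]
    nlinarith [mul_self_nonneg ((toC x).im - z0.im)]
  have h1 : ((S.image fun x : O => x.im).card : ℝ) ≤ 2 * (2 * √R / √3) + 1 := by
    refine card_int_le (a := 2 * z0.im / √3) (by positivity) _ ?_
    intro n hn
    obtain ⟨x, hx, rfl⟩ := Finset.mem_image.1 hn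
    have e : (x.im : ℝ) - 2 * z0.im / √3 = ((x.im : ℝ) * (√3 / 2) - z0.im) * (2 / √3) := by
      field_simp
    rw [e, abs_mul, abs_of_pos (by positivity : 0 < 2 / √3)]
    calc |(x.im : ℝ) * (√3 / 2) - z0.im| * (2 / √3) ≤ √R * (2 / √3) :=
          mul_le_mul_of_nonneg_right (him x hx) (by positivity)
      _ = 2 * √R / √3 := by ring
  have h2 : ∀ n ∈ S.image (fun x : O => x.im), (S.filter fun x => x.im = n).card ≤
      ⌊2 * √R + 1⌋₊ := by
    intro n _
    apply Nat.le_floor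
    have hinj : Set.InjOn (fun x : O => x.re) (S.filter fun x => x.im = n) := by
      intro x hx y hy hxy
      simp only [Finset.coe_filter, mem_ofPred_eq] at hx hy
      exact QuadraticAlgebra.ext hxy (hx.2.trans hy.2.symm)
    rw [← Finset.card_image_of_injOn hinj]
    refine card_int_le (a := n / 2 + z0.re) hsR0 _ ?_
    intro m hm
    obtain ⟨x, hx, rfl⟩ := Finset.mem_image.1 hm
    obtain ⟨hx1, hx2⟩ := Finset.mem_filter.1 hx
    have := hre x hx1
    rw [hx2] at this
    convert this using 2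
    ring
  have h4 := Finset.card_le_mul_card_image S _ h2
  have h5 : (S.card : ℝ) ≤ (⌊2 * √R + 1⌋₊ : ℝ) * ((S.image fun x : O => x.im).card : ℝ) := by
    exact_mod_cast h4
  have h6 : (⌊2 * √R + 1⌋₊ : ℝ) ≤ 2 * √R + 1 := Nat.floor_le (by positivity)
  have h7 : 2 * (2 * √R / √3) + 1 ≤ 5 / 2 * √R + 1 := by
    have : 2 * √R / √3 ≤ 5 / 4 * √R := by
      rw [div_le_iff₀ h3]
      have : (8 / 5 : ℝ) ≤ √3 := by
        apply Real.le_sqrt_of_sq_le; norm_num
      nlinarith
    linarith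
  calc (S.card : ℝ) ≤ (⌊2 * √R + 1⌋₊ : ℝ) * ((S.image fun x : O => x.im).card : ℝ) := h5
    _ ≤ (2 * √R + 1) * (5 / 2 * √R + 1) := by
        apply mul_le_mul h6 (h1.trans h7) (Nat.cast_nonneg _) (by positivity)
    _ = 5 * (√R * √R) + 9 / 2 * √R + 1 := by ring
    _ ≤ 8 * (1 + R) := by
        rw [hsR]
        nlinarith [sq_nonneg (√R - 1)]

theorem card_units (S : Finset O) (hS : ∀ x ∈ S, IsUnit x) : S.card ≤ 6 := by
  have h : S ⊆ {1, -1, om, -om, om ^ 2, -(om ^ 2)} := by
    intro x hx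
    have h1 := isUnit_iff_N.1 (hS x hx)
    have h2 := N_cast_int' x
    rw [h1] at h2
    have h3 : x.re * x.re - x.re * x.im + x.im * x.im = 1 := by
      rw [← h2]; rfl
    have h4 : -1 ≤ x.re ∧ x.re ≤ 1 := by constructor <;> nlinarith [sq_nonneg (2 * x.im - x.re)]
    have h5 : -1 ≤ x.im ∧ x.im ≤ 1 := by constructor <;> nlinarith [sq_nonneg (2 * x.re - x.im)]
    obtain ⟨a, b⟩ := x
    simp only at h3 h4 h5
    have ha : a = -1 ∨ a = 0 ∨ a = 1 := by omega
    have hb : b = -1 ∨ b = 0 ∨ b = 1 := by omega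
    rcases ha with rfl | rfl | rfl <;> rcases hb with rfl | rfl | rfl <;>
      first
      | (exfalso; revert h3; decide)
      | decide
  exact (Finset.card_le_card h).trans (by decide)

/-- **covering bound**: the number of coprime rows `(c, d)` with `Q w c d ≤ Y` -/
theorem card_rows_le (w : H3) {Y : ℝ} (S : Finset (O × O))
    (hS : ∀ p ∈ S, IsCoprime p.1 p.2 ∧ Q w (toC p.1) (toC p.2) ≤ Y) :
    (S.card : ℝ) ≤ 6 + 256 * Y ^ 2 := by
  classical
  rcases S.eq_empty_or_nonempty with rfl | ⟨p0, hp0⟩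
  · simp; positivity
  obtain ⟨hcop, hQ0⟩ := hS p0 hp0
  obtain ⟨u, t, hut⟩ := hcop
  -- a matrix with bottom row `p0`
  let g0 : SpecialLinearGroup (Fin 2) O := KU.mk2 t (-u) p0.1 p0.2 (by linear_combination hut)
  set w' := g0 • w with hw'
  have hv : w'.v = 1 / Q w (toC p0.1) (toC p0.2) := v_smul g0 w
  have hvpos := w'.v_pos
  have hQpos : 0 < Q w (toC p0.1) (toC p0.2) := by
    rw [hv] at hvpos
    exact one_div_pos.1 hvpos
  have hYv : 1 ≤ Y * w'.v := by
    rw [hv, mul_one_div, le_div_iff₀ hQpos, one_mul]; exact hQ0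
  have hYpos : 0 < Y := lt_of_lt_of_le hQpos hQ0
  -- new coordinates
  let φ : O × O → O × O := fun p => (p.1 * p0.2 - p.2 * p0.1, p.1 * u + p.2 * t)
  have hφ : ∀ p : O × O, (φ p).1 * t + (φ p).2 * p0.1 = p.1 ∧
      -((φ p).1 * u) + (φ p).2 * p0.2 = p.2 := by
    intro p
    constructor
    · show (p.1 * p0.2 - p.2 * p0.1) * t + (p.1 * u + p.2 * t) * p0.1 = p.1
      linear_combination p.1 * hut
    · show -((p.1 * p0.2 - p.2 * p0.1) * u) + (p.1 * u + p.2 * t) * p0.2 = p.2
      linear_combination p.2 * hut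
  have hinj : Function.Injective φ := by
    intro p q h
    have h1 := hφ p
    have h2 := hφ q
    rw [h] at h1
    exact Prod.ext (h1.1.symm.trans h2.1) (h1.2.symm.trans h2.2)
  have hQφ : ∀ p : O × O, Q w' (toC (φ p).1) (toC (φ p).2) = Q w (toC p.1) (toC p.2) := by
    intro p
    rw [hw', Q_smul]
    obtain ⟨h1, h2⟩ := hφ p
    have e1 : (φ p).1 * g0 0 0 + (φ p).2 * g0 1 0 = p.1 := by simpa [g0] using h1
    have e2 : (φ p).1 * g0 0 1 + (φ p).2 * g0 1 1 = p.2 := by simpa [g0] using h2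
    rw [e1, e2]
  set S' := S.image φ with hS'
  have hcard : S'.card = S.card := Finset.card_image_of_injective _ hinj
  have hS'Q : ∀ p ∈ S', Q w' (toC p.1) (toC p.2) ≤ Y := by
    intro p hp
    obtain ⟨q, hq, rfl⟩ := Finset.mem_image.1 hp
    rw [hQφ]; exact (hS q hq).2
  have hden : ∀ p ∈ S', normSq (toC p.1 * w'.z + toC p.2) + normSq (toC p.1) * w'.v ^ 2
      ≤ Y * w'.v := by
    intro p hp
    have := hS'Q p hp
    rwa [Q, den, div_le_iff₀ hvpos] at this
  -- rows with vanishing first entry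
  have h0 : ((S'.filter fun p => p.1 = 0).card : ℝ) ≤ 6 := by
    have hinj2 : Set.InjOn (fun p : O × O => p.2) (S'.filter fun p => p.1 = 0) := by
      intro p hp q hq hpq
      simp only [Finset.coe_filter, mem_ofPred_eq] at hp hq
      exact Prod.ext (hp.2.trans hq.2.symm) hpq
    rw [← Finset.card_image_of_injOn hinj2]
    have := card_units ((S'.filter fun p => p.1 = 0).image fun p : O × O => p.2) (by
      intro x hx
      obtain ⟨p, hp, rfl⟩ := Finset.mem_image.1 hx
      obtain ⟨hp1, hp2⟩ := Finset.mem_filter.1 hp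
      obtain ⟨q, hq, rfl⟩ := Finset.mem_image.1 hp1
      obtain ⟨a, b, hab⟩ := (hS q hq).1
      obtain ⟨e1, e2⟩ := hφ q
      rw [hp2] at e1 e2
      refine IsUnit.of_mul_eq_one (a * p0.1 + b * p0.2) ?_
      have e3 : q.1 = (φ q).2 * p0.1 := by rw [← e1]; ring
      have e4 : q.2 = (φ q).2 * p0.2 := by rw [← e2]; ring
      calc (φ q).2 * (a * p0.1 + b * p0.2) = a * ((φ q).2 * p0.1) + b * ((φ q).2 * p0.2) := by ring
        _ = 1 := by rw [← e3, ← e4]; exact hab)
    exact_mod_cast this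
  -- the other rows
  have h1 : ((S'.filter fun p => p.1 ≠ 0).card : ℝ) ≤ 256 * Y ^ 2 := by
    set U := S'.filter fun p => p.1 ≠ 0 with hU
    by_cases hUe : U = ∅
    · rw [hUe]; simp; positivity
    have hfst : ∀ x ∈ U.image (fun p : O × O => p.1), x ≠ 0 ∧ normSq (toC x - 0) ≤ Y / w'.v := by
      intro x hx
      obtain ⟨p, hp, rfl⟩ := Finset.mem_image.1 hx
      obtain ⟨hp1, hp2⟩ := Finset.mem_filter.1 hp
      refine ⟨hp2, ?_⟩
      have h := hden p hp1
      have h' := normSq_nonneg (toC p.1 * w'.z + toC p.2)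
      rw [sub_zero, le_div_iff₀ hvpos]
      have h2 : normSq (toC p.1) * w'.v ^ 2 ≤ Y * w'.v := by linarith
      have h3 : normSq (toC p.1) * w'.v * w'.v ≤ Y * w'.v := by
        calc _ = normSq (toC p.1) * w'.v ^ 2 := by ring
          _ ≤ _ := h2
      exact le_of_mul_le_mul_right h3 hvpos
    have hone : 1 ≤ Y / w'.v := by
      obtain ⟨p, hp⟩ := Finset.nonempty_iff_ne_empty.2 hUe
      obtain ⟨hx0, hx1⟩ := hfst p.1 (Finset.mem_image_of_mem _ hp)
      refine le_trans ?_ hx1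
      rw [sub_zero, ← N_cast_real]
      exact_mod_cast N_pos hx0
    have hc1 : ((U.image fun p : O × O => p.1).card : ℝ) ≤ 16 * (Y / w'.v) := by
      have := card_disc (z0 := 0) (by positivity) _ fun x hx => (hfst x hx).2
      linarith
    have hc2 : ∀ x ∈ U.image (fun p : O × O => p.1), (U.filter fun p => p.1 = x).card
        ≤ ⌊16 * (Y * w'.v)⌋₊ := by
      intro x _
      apply Nat.le_floor
      have hinj2 : Set.InjOn (fun p : O × O => p.2) (U.filter fun p => p.1 = x) := by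
        intro p hp q hq hpq
        simp only [Finset.coe_filter, mem_ofPred_eq] at hp hq
        exact Prod.ext (hp.2.trans hq.2.symm) hpq
      rw [← Finset.card_image_of_injOn hinj2]
      have := card_disc (z0 := -(toC x * w'.z)) (R := Y * w'.v) (by positivity)
        ((U.filter fun p => p.1 = x).image fun p : O × O => p.2) (by
          intro y hy
          obtain ⟨p, hp, rfl⟩ := Finset.mem_image.1 hy
          obtain ⟨hp1, hp2⟩ := Finset.mem_filter.1 hp
          have h := hden p (Finset.mem_filter.1 hp1).1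
          have h' : 0 ≤ normSq (toC p.1) * w'.v ^ 2 := by
            have := normSq_nonneg (toC p.1); positivity
          rw [hp2] at h h'
          have e : toC p.2 - -(toC x * w'.z) = toC x * w'.z + toC p.2 := by ring
          rw [e]
          linarith)
      linarith
    have h4 := Finset.card_le_mul_card_image U _ hc2
    have h5 : (U.card : ℝ) ≤ (⌊16 * (Y * w'.v)⌋₊ : ℝ) *
        ((U.image fun p : O × O => p.1).card : ℝ) := by exact_mod_cast h4
    have h6 : (⌊16 * (Y * w'.v)⌋₊ : ℝ) ≤ 16 * (Y * w'.v) := Nat.floor_le (by positivity)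
    calc (U.card : ℝ) ≤ _ := h5
      _ ≤ 16 * (Y * w'.v) * (16 * (Y / w'.v)) :=
          mul_le_mul h6 hc1 (Nat.cast_nonneg _) (by positivity)
      _ = 256 * Y ^ 2 := by field_simp; ring
  have h2 : S'.card = (S'.filter fun p => p.1 = 0).card + (S'.filter fun p => p.1 ≠ 0).card :=
    (Finset.card_filter_add_card_filter_not (s := S') (fun p => p.1 = 0)).symm
  rw [← hcard, h2]
  push_cast
  linarith

end Vale.Agent.P006.H9
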