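import Vale.Agent.P006.CR.Basic
import Vale.Agent.P006.KU.Gamma
import Mathlib.MeasureTheory.Constructions.BorelSpace.Basic
import Mathlib.MeasureTheory.Constructions.BorelSpace.Complex
import Mathlib.MeasureTheory.Group.Arithmetic
import Mathlib.Topology.Algebra.MulAction

/-!
P006, block H: hyperbolic three-space, the action of `SL₂(ℂ)` and `SL₂(O)` by means of the
hermitian forms `Q w c d = (|c z + d|² + |c|² v²) / v`.
-/

namespace Vale.Agent.P006.H9

open Matrix Complex

/-- hyperbolic three-space: pairs `(z, v)` with `z` complex and `v > 0` real -/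
def H3 : Type := {w : ℂ × ℝ // 0 < w.2}

namespace H3

/-- the complex coordinate -/
def z (w : H3) : ℂ := w.1.1

/-- the height -/
def v (w : H3) : ℝ := w.1.2

theorem v_pos (w : H3) : 0 < w.v := w.2

/-- the point with given coordinates -/
def mk (z : ℂ) (v : ℝ) (h : 0 < v) : H3 := ⟨(z, v), h⟩

@[simp] theorem mk_z (z : ℂ) (v : ℝ) (h : 0 < v) : (mk z v h).z = z := rfl
@[simp] theorem mk_v (z : ℂ) (v : ℝ) (h : 0 < v) : (mk z v h).v = v := rfl

@[ext] theorem ext {w w' : H3} (h1 : w.z = w'.z) (h2 : w.v = w'.v) : w = w' :=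
  Subtype.ext (Prod.ext h1 h2)

instance : TopologicalSpace H3 := inferInstanceAs (TopologicalSpace {w : ℂ × ℝ // 0 < w.2})
instance : MeasurableSpace H3 := inferInstanceAs (MeasurableSpace {w : ℂ × ℝ // 0 < w.2})
instance : BorelSpace H3 := inferInstanceAs (BorelSpace {w : ℂ × ℝ // 0 < w.2})
instance : SecondCountableTopology H3 :=
  inferInstanceAs (SecondCountableTopology {w : ℂ × ℝ // 0 < w.2})
instance : T2Space H3 := inferInstanceAs (T2Space {w : ℂ × ℝ // 0 < w.2})
instance : Nonempty H3 := ⟨mk 0 1 one_pos⟩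

theorem continuous_val : Continuous (fun w : H3 => w.1) := continuous_subtype_val

@[continuity, fun_prop]
theorem continuous_z : Continuous H3.z := continuous_fst.comp continuous_val

@[continuity, fun_prop]
theorem continuous_v : Continuous H3.v := continuous_snd.comp continuous_val

@[fun_prop]
theorem measurable_z : Measurable H3.z := continuous_z.measurable

@[fun_prop]
theorem measurable_v : Measurable H3.v := continuous_v.measurable

end H3

/-- `den w c d = |c z + d|² + |c|² v²` -/
noncomputable def den (w : H3) (c d : ℂ) : ℝ := normSq (c * w.z + d) + normSq c * w.v ^ 2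

/-- the hermitian form of the point `w`: `Q w c d = (|c z + d|² + |c|² v²) / v` -/
noncomputable def Q (w : H3) (c d : ℂ) : ℝ := den w c d / w.v

theorem den_nonneg (w : H3) (c d : ℂ) : 0 ≤ den w c d := by
  have := normSq_nonneg (c * w.z + d)
  have := normSq_nonneg c
  unfold den; positivity

theorem den_pos {w : H3} {c d : ℂ} (h : c ≠ 0 ∨ d ≠ 0) : 0 < den w c d := by
  unfold den
  have hv := w.v_pos
  by_cases hc : c = 0
  · have hd : d ≠ 0 := by tauto
    subst hc
    simpa using normSq_pos.2 hd
  · have h1 : 0 < normSq c := normSq_pos.2 hc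
    have h2 := normSq_nonneg (c * w.z + d)
    positivity

theorem Q_nonneg (w : H3) (c d : ℂ) : 0 ≤ Q w c d := div_nonneg (den_nonneg w c d) w.v_pos.le

theorem Q_pos {w : H3} {c d : ℂ} (h : c ≠ 0 ∨ d ≠ 0) : 0 < Q w c d :=
  div_pos (den_pos h) w.v_pos

theorem Q_zero_one (w : H3) : Q w 0 1 = 1 / w.v := by simp [Q, den]

theorem Q_zero_left (w : H3) (d : ℂ) : Q w 0 d = normSq d / w.v := by simp [Q, den]

/-- a point is determined by its form -/
theorem ext_Q {w w' : H3} (h : ∀ c d, Q w c d = Q w' c d) : w = w' := by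
  have h1 := h 0 1
  rw [Q_zero_one, Q_zero_one] at h1
  have hv : w.v = w'.v := by
    have := inv_injective (show (w.v)⁻¹ = (w'.v)⁻¹ by simpa using h1)
    exact this
  refine H3.ext ?_ hv
  have h2 := h 1 (-w.z)
  have hv' := w'.v_pos
  have hv1 := w.v_pos
  simp only [Q, den, one_mul, add_neg_cancel, normSq_zero, normSq_one, zero_add, hv] at h2
  rw [div_left_inj' hv'.ne'] at h2
  have h3 : normSq (w'.z + -w.z) = 0 := by linarith
  rw [normSq_eq_zero] at h3
  linear_combination -h3

section action

variable (g : SpecialLinearGroup (Fin 2) ℂ) (w : H3)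

theorem row_ne_zero (g : SpecialLinearGroup (Fin 2) ℂ) : g 1 0 ≠ 0 ∨ g 1 1 ≠ 0 := by
  by_contra h
  push Not at h
  have := KU.det_eq g
  rw [h.1, h.2] at this
  simp at this

theorem den_row_pos : 0 < den w (g 1 0) (g 1 1) := den_pos (row_ne_zero g)

/-- the action of a matrix on a point -/
noncomputable def act : H3 :=
  H3.mk (((g 0 0 * w.z + g 0 1) * (starRingEnd ℂ) (g 1 0 * w.z + g 1 1)
      + g 0 0 * (starRingEnd ℂ) (g 1 0) * (w.v : ℂ) ^ 2) / (den w (g 1 0) (g 1 1) : ℂ))
    (w.v / den w (g 1 0) (g 1 1)) (div_pos w.v_pos (den_row_pos g w))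

theorem normSq_identity (U W q C : ℂ) :
    normSq (U * (starRingEnd ℂ) q + W * (starRingEnd ℂ) C) + normSq (W * q - U * C)
      = (normSq U + normSq W) * (normSq q + normSq C) := by
  simp only [normSq_apply, add_re, add_im, mul_re, mul_im, conj_re, conj_im, sub_re, sub_im]
  ring

theorem Q_act (x y : ℂ) :
    Q (act g w) x y = Q w (x * g 0 0 + y * g 1 0) (x * g 0 1 + y * g 1 1) := by
  have hD := den_row_pos g w
  have hdet := KU.det_eq g
  have hv := w.v_pos
  set a := g 0 0 with ha
  set b := g 0 1 with hb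
  set c := g 1 0 with hc
  set d := g 1 1 with hd
  set D := den w c d with hDdef
  set U : ℂ := x * (a * w.z + b) + y * (c * w.z + d) with hU
  set W : ℂ := x * (a * w.v) + y * (c * w.v) with hW
  set q : ℂ := c * w.z + d with hq
  set C : ℂ := c * w.v with hC
  have hDval : (D : ℂ) = q * (starRingEnd ℂ) q + C * (starRingEnd ℂ) C := by
    rw [mul_conj, mul_conj, hDdef, den, hC, normSq_mul, normSq_ofReal]
    push_cast; ring
  have hDC : (D : ℂ) ≠ 0 := by exact_mod_cast hD.ne'
  have h1 : x * (act g w).z + y = (U * (starRingEnd ℂ) q + W * (starRingEnd ℂ) C) / D := by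
    rw [eq_div_iff hDC]
    have : (act g w).z = ((a * w.z + b) * (starRingEnd ℂ) q
      + a * (starRingEnd ℂ) c * (w.v : ℂ) ^ 2) / (D : ℂ) := rfl
    rw [this, add_mul, mul_assoc, div_mul_cancel₀ _ hDC, hDval, hU, hW, hC, map_mul,
      conj_ofReal]
    ring
  have h2 : x * ((act g w).v : ℂ) = (W * q - U * C) / D := by
    rw [eq_div_iff hDC]
    have : ((act g w).v : ℂ) = w.v / D := by
      show ((w.v / D : ℝ) : ℂ) = _
      push_cast; rfl
    rw [this, mul_assoc, div_mul_cancel₀ _ hDC, hU, hW, hC, hq]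
    linear_combination (-(x * w.v)) * hdet
  have h3 : normSq x * (act g w).v ^ 2 = normSq (x * ((act g w).v : ℂ)) := by
    rw [normSq_mul, normSq_ofReal]; ring
  have h4 : (act g w).v = w.v / D := rfl
  have h5 : normSq (D : ℂ) = D * (normSq q + normSq C) := by
    rw [normSq_ofReal]
    congr 1
    rw [hDdef, den, hC, normSq_mul, normSq_ofReal]; ring
  have h6 : D = normSq q + normSq C := by
    rw [hDdef, den, hC, normSq_mul, normSq_ofReal]; ring
  unfold Q
  have h7 : den (act g w) x y = (normSq U + normSq W) / D := by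
    unfold den
    rw [h3, h1, h2, normSq_div, normSq_div, ← add_div, normSq_identity, h5, ← h6]
    field_simp
  rw [h7, h4, div_div_div_cancel_right₀ hD.ne']
  congr 1
  unfold den
  have e1 : (x * a + y * c) * w.z + (x * b + y * d) = U := by rw [hU]; ring
  have e2 : normSq (x * a + y * c) * w.v ^ 2 = normSq W := by
    have : W = (x * a + y * c) * (w.v : ℂ) := by rw [hW]; ring
    rw [this, normSq_mul, normSq_ofReal]; ring
  rw [e1, e2]

end action

noncomputable instance : MulAction (SpecialLinearGroup (Fin 2) ℂ) H3 where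
  smul := act
  one_smul w := by
    apply ext_Q
    intro c d
    show Q (act 1 w) c d = _
    rw [Q_act]; simp
  mul_smul g h w := by
    apply ext_Q
    intro c d
    show Q (act (g * h) w) c d = Q (act g (act h w)) c d
    rw [Q_act, Q_act, Q_act, KU.mul_00, KU.mul_01, KU.mul_10, KU.mul_11]
    congr 1 <;> ring

theorem smul_def (g : SpecialLinearGroup (Fin 2) ℂ) (w : H3) : g • w = act g w := rfl

theorem Q_smulC (g : SpecialLinearGroup (Fin 2) ℂ) (w : H3) (x y : ℂ) :
    Q (g • w) x y = Q w (x * g 0 0 + y * g 1 0) (x * g 0 1 + y * g 1 1) := Q_act g w x y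

theorem v_smulC (g : SpecialLinearGroup (Fin 2) ℂ) (w : H3) :
    (g • w).v = 1 / Q w (g 1 0) (g 1 1) := by
  show w.v / den w (g 1 0) (g 1 1) = _
  rw [Q]; simp

theorem z_smulC (g : SpecialLinearGroup (Fin 2) ℂ) (w : H3) :
    (g • w).z = (((g 0 0 * w.z + g 0 1) * (starRingEnd ℂ) (g 1 0 * w.z + g 1 1)
      + g 0 0 * (starRingEnd ℂ) (g 1 0) * (w.v : ℂ) ^ 2) / (den w (g 1 0) (g 1 1) : ℂ)) := rfl

@[fun_prop]
theorem continuous_den (c d : ℂ) : Continuous (fun w : H3 => den w c d) := by
  unfold den
  exact ((continuous_normSq.comp (by fun_prop)).add (by fun_prop))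

@[fun_prop]
theorem continuous_Q (c d : ℂ) : Continuous (fun w : H3 => Q w c d) := by
  unfold Q
  exact (continuous_den c d).div (by fun_prop) (fun w => w.v_pos.ne')

instance : ContinuousConstSMul (SpecialLinearGroup (Fin 2) ℂ) H3 where
  continuous_const_smul g := by
    have h1 : Continuous fun w : H3 => (g • w).z := by
      simp only [z_smulC]
      refine Continuous.div ?_ ?_ ?_
      · exact ((by fun_prop : Continuous fun w : H3 => (g 0 0 * w.z + g 0 1)).mul
          (continuous_conj.comp (by fun_prop))).add (by fun_prop)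
      · exact continuous_ofReal.comp (continuous_den _ _)
      · intro w
        exact_mod_cast (den_row_pos g w).ne'
    have h2 : Continuous fun w : H3 => (g • w).v := by
      have : (fun w : H3 => (g • w).v) = fun w => w.v / den w (g 1 0) (g 1 1) := rfl
      rw [this]
      exact H3.continuous_v.div (continuous_den _ _) (fun w => (den_row_pos g w).ne')
    exact Continuous.subtype_mk (h1.prodMk h2) _

/-- the map `SL₂(O) → SL₂(ℂ)` -/
noncomputable def toSLC : SpecialLinearGroup (Fin 2) O →* SpecialLinearGroup (Fin 2) ℂ :=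
  SpecialLinearGroup.map toC

@[simp] theorem toSLC_apply (g : SpecialLinearGroup (Fin 2) O) (i j : Fin 2) :
    toSLC g i j = toC (g i j) := rfl

noncomputable instance : MulAction (SpecialLinearGroup (Fin 2) O) H3 :=
  MulAction.compHom H3 toSLC

theorem smul_eq (g : SpecialLinearGroup (Fin 2) O) (w : H3) : g • w = toSLC g • w := rfl

instance : ContinuousConstSMul (SpecialLinearGroup (Fin 2) O) H3 where
  continuous_const_smul g := continuous_const_smul (toSLC g)

instance : MeasurableConstSMul (SpecialLinearGroup (Fin 2) ℂ) H3 where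
  measurable_const_smul g := (continuous_const_smul g).measurable

instance : MeasurableConstSMul (SpecialLinearGroup (Fin 2) O) H3 where
  measurable_const_smul g := (continuous_const_smul g).measurable

theorem Q_smul (g : SpecialLinearGroup (Fin 2) O) (w : H3) (x y : O) :
    Q (g • w) (toC x) (toC y)
      = Q w (toC (x * g 0 0 + y * g 1 0)) (toC (x * g 0 1 + y * g 1 1)) := by
  rw [smul_eq, Q_smulC]; simp

theorem v_smul (g : SpecialLinearGroup (Fin 2) O) (w : H3) :
    (g • w).v = 1 / Q w (toC (g 1 0)) (toC (g 1 1)) := v_smulC (toSLC g) w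

theorem tr_smul (x : O) (w : H3) :
    KU.tr x • w = H3.mk (w.z + toC x) w.v w.v_pos := by
  apply H3.ext
  · rw [smul_eq, z_smulC]; simp [KU.tr, den]
  · rw [v_smul]; simp [KU.tr, Q, den]

theorem Smat_smul_z (w : H3) :
    (KU.Smat O • w).z = -(starRingEnd ℂ) w.z / (normSq w.z + w.v ^ 2 : ℝ) := by
  rw [smul_eq, z_smulC]; simp [KU.Smat, den]

theorem Smat_smul_v (w : H3) :
    (KU.Smat O • w).v = w.v / (normSq w.z + w.v ^ 2) := by
  rw [v_smul]; simp [KU.Smat, Q, den]

end Vale.Agent.P006.H9
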