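import Vale.Agent.P006.H9.Quot
import Mathlib.Analysis.Complex.Basic
import Mathlib.MeasureTheory.Constructions.BorelSpace.Complex
import Mathlib.MeasureTheory.Function.StronglyMeasurable.Basic

/-!
P006, block H (abstract part): transversals, unfolding for nonnegative and for complex functions,
automorphy of Eisenstein series.
-/

namespace Vale.Agent.P006.H9

open MeasureTheory ENNReal Set

variable {G X ι : Type*} [Group G] [MulAction G X]

/-- `r` is a transversal of `T \ B`: every element of `B` is `t * r i` for unique `t ∈ T`, `i` -/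
structure IsTransversal (T B : Subgroup G) (r : ι → G) : Prop where
  le : T ≤ B
  mem : ∀ i, r i ∈ B
  surj : ∀ g ∈ B, ∃ t ∈ T, ∃ i, g = t * r i
  inj : ∀ i j, ∀ t ∈ T, r i = t * r j → i = j

namespace IsTransversal

variable {T B : Subgroup G} {r : ι → G}

/-- the bijection `T × ι ≃ B` -/
noncomputable def equiv (h : IsTransversal T B r) : T × ι ≃ B :=
  Equiv.ofBijective (fun p => (⟨(p.1 : G) * r p.2, B.mul_mem (h.le p.1.2) (h.mem p.2)⟩ : B)) <| by
    constructor
    · rintro ⟨t, i⟩ ⟨t', j⟩ hij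
      have h1 : (t : G) * r i = t' * r j := congrArg Subtype.val hij
      have h2 : r i = ((t : G)⁻¹ * t') * r j := by
        rw [mul_assoc, ← h1, inv_mul_cancel_left]
      have h3 : i = j := h.inj i j _ (T.mul_mem (T.inv_mem t.2) t'.2) h2
      subst h3
      have h4 : (t : G) = t' := mul_right_cancel h1
      rw [Subtype.ext h4]
    · rintro ⟨g, hg⟩
      obtain ⟨t, ht, i, hi⟩ := h.surj g hg
      exact ⟨(⟨t, ht⟩, i), Subtype.ext hi.symm⟩

theorem equiv_apply (h : IsTransversal T B r) (p : T × ι) :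
    ((h.equiv p : B) : G) = (p.1 : G) * r p.2 := rfl

theorem countable [Countable G] (h : IsTransversal T B r) : Countable ι := by
  have : Function.Injective (fun i : ι => (((1 : T), i) : T × ι)) := fun i j hij => by
    simpa using hij
  exact (h.equiv.injective.comp this).countable

/-- the index `j` with `r i * γ ∈ T * r j` -/
noncomputable def perm (h : IsTransversal T B r) {γ : G} (hγ : γ ∈ B) : ι ≃ ι where
  toFun i := (h.equiv.symm ⟨r i * γ, B.mul_mem (h.mem i) hγ⟩).2
  invFun i := (h.equiv.symm ⟨r i * γ⁻¹, B.mul_mem (h.mem i) (B.inv_mem hγ)⟩).2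
  left_inv i := by
    set p := h.equiv.symm ⟨r i * γ, B.mul_mem (h.mem i) hγ⟩ with hp
    have h1 : (p.1 : G) * r p.2 = r i * γ := by
      rw [← h.equiv_apply, hp, Equiv.apply_symm_apply]
    have h2 : h.equiv ((p.1)⁻¹, i) = ⟨r p.2 * γ⁻¹, B.mul_mem (h.mem _) (B.inv_mem hγ)⟩ := by
      apply Subtype.ext
      rw [h.equiv_apply]
      show ((p.1 : T)⁻¹ : G) * r i = r p.2 * γ⁻¹
      rw [eq_mul_inv_iff_mul_eq, mul_assoc, ← h1, inv_mul_cancel_left]
    show (h.equiv.symm ⟨r p.2 * γ⁻¹, _⟩).2 = i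
    rw [← h2, Equiv.symm_apply_apply]
  right_inv i := by
    set p := h.equiv.symm ⟨r i * γ⁻¹, B.mul_mem (h.mem i) (B.inv_mem hγ)⟩ with hp
    have h1 : (p.1 : G) * r p.2 = r i * γ⁻¹ := by
      rw [← h.equiv_apply, hp, Equiv.apply_symm_apply]
    have h2 : h.equiv ((p.1)⁻¹, i) = ⟨r p.2 * γ, B.mul_mem (h.mem _) hγ⟩ := by
      apply Subtype.ext
      rw [h.equiv_apply]
      show ((p.1 : T)⁻¹ : G) * r i = r p.2 * γ
      rw [← mul_inv_eq_iff_eq_mul, mul_assoc, ← h1, inv_mul_cancel_left]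
    show (h.equiv.symm ⟨r p.2 * γ, _⟩).2 = i
    rw [← h2, Equiv.symm_apply_apply]

theorem exists_perm (h : IsTransversal T B r) {γ : G} (hγ : γ ∈ B) (i : ι) :
    ∃ t ∈ T, r i * γ = t * r (h.perm hγ i) := by
  set p := h.equiv.symm ⟨r i * γ, B.mul_mem (h.mem i) hγ⟩ with hp
  refine ⟨p.1, p.1.2, ?_⟩
  show r i * γ = (p.1 : G) * r p.2
  rw [← h.equiv_apply, hp, Equiv.apply_symm_apply]

/-- sums over `T \ B` of `T`-invariant functions are `B`-invariant -/
theorem tsum_smul {M : Type*} [AddCommMonoid M] [TopologicalSpace M] (h : IsTransversal T B r)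
    {F : X → M} (hF : Inv T F) {γ : G} (hγ : γ ∈ B) (w : X) :
    ∑' i, F (r i • γ • w) = ∑' i, F (r i • w) := by
  rw [← (h.perm hγ).tsum_eq (fun i => F (r i • w))]
  refine tsum_congr fun i => ?_
  obtain ⟨t, ht, e⟩ := h.exists_perm hγ i
  rw [← mul_smul, e, mul_smul, hF t ht]

/-- decomposition of the orbit sum -/
theorem osum_eq (h : IsTransversal T B r) (k : X → ℝ≥0∞) (w : X) :
    osum B k w = ∑' i, osum T k (r i • w) := by
  unfold osum
  rw [← h.equiv.tsum_eq, ENNReal.tsum_prod', ENNReal.tsum_comm]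
  refine tsum_congr fun i => tsum_congr fun t => ?_
  show k (((t : G) * r i) • w) = _
  rw [mul_smul]

end IsTransversal

/-- a function on `G` that is a unitary character on the subgroup `B` -/
structure IsChar (B : Subgroup G) (χ : G → ℂ) : Prop where
  mul : ∀ g ∈ B, ∀ h ∈ B, χ (g * h) = χ g * χ h
  norm : ∀ g ∈ B, ‖χ g‖ = 1

/-- automorphy -/
def Aut (B : Subgroup G) (χ : G → ℂ) (F : X → ℂ) : Prop := ∀ g ∈ B, ∀ w, F (g • w) = χ g * F w

theorem IsChar.mono {B B' : Subgroup G} {χ : G → ℂ} (h : IsChar B χ) (hle : B' ≤ B) :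
    IsChar B' χ := ⟨fun g hg g' hg' => h.mul g (hle hg) g' (hle hg'), fun g hg => h.norm g (hle hg)⟩

theorem Aut.mono {B B' : Subgroup G} {χ : G → ℂ} {F : X → ℂ} (h : Aut B χ F) (hle : B' ≤ B) :
    Aut B' χ F := fun g hg => h g (hle hg)

theorem Aut.sub {B : Subgroup G} {χ : G → ℂ} {F F' : X → ℂ} (h : Aut B χ F) (h' : Aut B χ F') :
    Aut B χ (fun w => F w - F' w) := fun g hg w => by
  simp only []; rw [h g hg w, h' g hg w]; ring

theorem Aut.add {B : Subgroup G} {χ : G → ℂ} {F F' : X → ℂ} (h : Aut B χ F) (h' : Aut B χ F') :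
    Aut B χ (fun w => F w + F' w) := fun g hg w => by
  simp only []; rw [h g hg w, h' g hg w]; ring

theorem Aut.const_mul {B : Subgroup G} {χ : G → ℂ} {F : X → ℂ} (h : Aut B χ F) (a : ℂ) :
    Aut B χ (fun w => a * F w) := fun g hg w => by
  simp only []; rw [h g hg w]; ring

theorem Aut.norm_inv {B : Subgroup G} {χ : G → ℂ} {F : X → ℂ} (h : Aut B χ F)
    (hχ : IsChar B χ) : Inv B (fun w => ‖F w‖ₑ) := fun g hg w => by
  simp only []
  rw [h g hg w, enorm_mul]
  have : ‖χ g‖ₑ = 1 := by rw [← ofReal_norm, hχ.norm g hg, ENNReal.ofReal_one]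
  rw [this, one_mul]

theorem IsChar.conj_mul_self {B : Subgroup G} {χ : G → ℂ} (hχ : IsChar B χ) {g : G} (hg : g ∈ B) :
    (starRingEnd ℂ) (χ g) * χ g = 1 := by
  rw [Complex.conj_mul', hχ.norm g hg]; simp

/-- the Eisenstein series `∑_{T \ B} conj χ(r i) ψ (r i w)` -/
noncomputable def Eis (r : ι → G) (χ : G → ℂ) (ψ : X → ℂ) (w : X) : ℂ :=
  ∑' i, (starRingEnd ℂ) (χ (r i)) * ψ (r i • w)

theorem Eis_aut {T B : Subgroup G} {r : ι → G} (hr : IsTransversal T B r) {χ : G → ℂ}
    (hχ : IsChar B χ) (hT : ∀ t ∈ T, χ t = 1) {ψ : X → ℂ} (hψ : Inv T ψ) :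
    Aut B χ (Eis r χ ψ) := by
  intro γ hγ w
  unfold Eis
  rw [← tsum_mul_left, ← (hr.perm hγ).tsum_eq (fun i => χ γ * ((starRingEnd ℂ) (χ (r i)) *
    ψ (r i • w)))]
  refine tsum_congr fun i => ?_
  obtain ⟨t, ht, e⟩ := hr.exists_perm hγ i
  have h1 : χ (r (hr.perm hγ i)) = χ (r i) * χ γ := by
    rw [← hχ.mul _ (hr.mem i) _ hγ, e, hχ.mul _ (hr.le ht) _ (hr.mem _), hT t ht, one_mul]
  rw [← mul_smul, e, mul_smul, hψ t ht, h1, map_mul]
  have h2 := hχ.conj_mul_self hγ
  linear_combination (-((starRingEnd ℂ) (χ (r i)) * ψ (r (hr.perm hγ i) • w))) * h2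

variable [MeasurableSpace X]

section unfold

variable [Countable G] [MeasurableConstSMul G X] {μ : Measure X}
    [SMulInvariantMeasure G X μ] {K : X → ℝ≥0∞} (hK : IsBase G K) {T B : Subgroup G} {r : ι → G}
    (hr : IsTransversal T B r) {P : Set X} (hP : IsFundamentalDomain T P μ)

include hK hr hP

/-- **unfolding**, nonnegative functions -/
theorem unfold_lintegral {H : X → ℝ≥0∞} (hH : Measurable H) (hinv : Inv T H) :
    ∫⁻ w, ∑' i, H (r i • w) ∂(qm μ K B) = ∫⁻ w in P, H w ∂μ := by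
  have hc := hr.countable
  have hk := isKernel_kern hK B
  have hm : ∀ i, Measurable fun w => H (r i • w) := fun i => hH.comp (measurable_const_smul (r i))
  rw [lintegral_qm' μ hK (Measurable.tsum hm)]
  simp only [← ENNReal.tsum_mul_right]
  rw [lintegral_tsum (f := fun i w => H (r i • w) * kern B K w)
    (fun i => ((hm i).mul hk.meas).aemeasurable)]
  have h1 : ∀ i, ∫⁻ w, H (r i • w) * kern B K w ∂μ
      = ∑' t : T, ∫⁻ w in P, H w * kern B K (((t : G) * r i)⁻¹ • w) ∂μ := by
    intro i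
    have e1 : ∫⁻ w, H (r i • w) * kern B K w ∂μ
        = ∫⁻ w, H w * kern B K ((r i)⁻¹ • w) ∂μ := by
      rw [← (measurePreserving_smul (r i) μ).lintegral_comp
        (f := fun w => H w * kern B K ((r i)⁻¹ • w))
        (hH.mul (hk.meas.comp (measurable_const_smul _)))]
      simp
    rw [e1, hP.lintegral_eq_tsum']
    refine tsum_congr fun t => lintegral_congr fun w => ?_
    have e2 : H (t⁻¹ • w) = H w := hinv _ (T.inv_mem t.2) w
    rw [e2, mul_inv_rev, mul_smul]
    rfl
  calc ∑' i, ∫⁻ w, H (r i • w) * kern B K w ∂μ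
      = ∑' i, ∑' t : T, ∫⁻ w in P, H w * kern B K (((t : G) * r i)⁻¹ • w) ∂μ := tsum_congr h1
    _ = ∑' b : B, ∫⁻ w in P, H w * kern B K ((b : G)⁻¹ • w) ∂μ := by
        rw [ENNReal.tsum_comm, ← ENNReal.tsum_prod (f := fun (t : T) i =>
          ∫⁻ w in P, H w * kern B K (((t : G) * r i)⁻¹ • w) ∂μ), ← hr.equiv.tsum_eq]
        rfl
    _ = ∫⁻ w in P, ∑' b : B, H w * kern B K ((b : G)⁻¹ • w) ∂μ := by
        rw [lintegral_tsum (f := fun (b : B) w => H w * kern B K ((b : G)⁻¹ • w)) fun b : B =>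
          (hH.mul (hk.meas.comp (measurable_const_smul (b : G)⁻¹))).aemeasurable]
    _ = ∫⁻ w in P, H w ∂μ := by
        refine lintegral_congr fun w => ?_
        rw [ENNReal.tsum_mul_left]
        have : ∑' b : B, kern B K ((b : G)⁻¹ • w) = 1 := by
          rw [← hk.sum_eq w, osum, ← (Equiv.inv B).tsum_eq]
          refine tsum_congr fun b => ?_
          simp
        rw [this, mul_one]

/-- unfolding against a `B`-invariant function -/
theorem unfold_mul_lintegral {H F : X → ℝ≥0∞} (hH : Measurable H) (hinv : Inv T H)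
    (hF : Measurable F) (hFi : Inv B F) :
    ∫⁻ w, (∑' i, H (r i • w)) * F w ∂(qm μ K B) = ∫⁻ w in P, H w * F w ∂μ := by
  rw [← unfold_lintegral hK hr hP (H := fun w => H w * F w) (hH.mul hF) (fun t ht x => by
    simp only []; rw [hinv t ht, hFi t (hr.le ht) x])]
  refine lintegral_congr fun w => ?_
  rw [← ENNReal.tsum_mul_right]
  refine tsum_congr fun i => ?_
  rw [hFi _ (hr.mem i)]

end unfold

/-- the `σ`-algebra of measurable `T`-invariant sets -/
@[instance_reducible]
def invSigma (X : Type*) [MulAction G X] [MeasurableSpace X] (T : Subgroup G) :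
    MeasurableSpace X where
  MeasurableSet' s := MeasurableSet s ∧ ∀ t ∈ T, ∀ x : X, t • x ∈ s ↔ x ∈ s
  measurableSet_empty := ⟨MeasurableSet.empty, by simp⟩
  measurableSet_compl s hs := ⟨hs.1.compl, fun t ht x => by simp [hs.2 t ht x]⟩
  measurableSet_iUnion f hf := ⟨MeasurableSet.iUnion fun i => (hf i).1, fun t ht x => by
    simp [(hf _).2 t ht x]⟩

theorem invSigma_le (T : Subgroup G) : invSigma X T ≤ ‹MeasurableSpace X› := fun _ hs => hs.1

theorem measurable_invSigma {β : Type*} [MeasurableSpace β] {T : Subgroup G} {H : X → β}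
    (hH : Measurable H) (hi : Inv T H) : Measurable[invSigma X T] H := by
  intro s hs
  exact ⟨hH hs, fun t ht x => by simp [hi t ht x]⟩

section unfoldC

variable [Countable G] [MeasurableConstSMul G X] {μ : Measure X}
    [SMulInvariantMeasure G X μ] {K : X → ℝ≥0∞} (hK : IsBase G K) {T B : Subgroup G} {r : ι → G}
    (hr : IsTransversal T B r) {P : Set X} (hP : IsFundamentalDomain T P μ)
    {H : X → ℂ} (hH : Measurable H) (hinv : Inv T H) (hint : Integrable H (μ.restrict P))

include hK hr hP hH hinv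

theorem lintegral_tsum_enorm :
    ∑' i, ∫⁻ w, ‖H (r i • w)‖ₑ ∂(qm μ K B) = ∫⁻ w in P, ‖H w‖ₑ ∂μ := by
  have hc := hr.countable
  rw [← unfold_lintegral hK hr hP (H := fun w => ‖H w‖ₑ) hH.enorm (fun t ht x => by
    simp only []; rw [hinv t ht])]
  rw [lintegral_tsum]
  exact fun i => ((hH.comp (measurable_const_smul (r i))).enorm).aemeasurable

include hint

theorem tsum_enorm_ne_top : ∑' i, ∫⁻ w, ‖H (r i • w)‖ₑ ∂(qm μ K B) ≠ ∞ := by
  rw [lintegral_tsum_enorm hK hr hP hH hinv]
  exact hint.2.ne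

/-- absolute convergence almost everywhere -/
theorem ae_summable : ∀ᵐ w ∂μ, Summable fun i => H (r i • w) := by
  have hc := hr.countable
  have h1 := tsum_enorm_ne_top hK hr hP hH hinv hint
  have hm : ∀ i, AEMeasurable (fun w => ‖H (r i • w)‖ₑ) (qm μ K B) := fun i =>
    ((hH.comp (measurable_const_smul (r i))).enorm).aemeasurable
  rw [← lintegral_tsum hm] at h1
  have h2 := ae_lt_top' (AEMeasurable.tsum hm) h1
  refine (ac_qm μ hK (B := B)).ae_le ?_
  filter_upwards [h2] with w hw
  have h3 : Summable fun i => ‖H (r i • w)‖ := by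
    have := ENNReal.summable_toReal hw.ne
    simpa using this
  exact h3.of_norm

theorem integrable_tsum : Integrable (fun w => ∑' i, H (r i • w)) (qm μ K B) := by
  have hc := hr.countable
  have h1 := tsum_enorm_ne_top hK hr hP hH hinv hint
  have hm : ∀ i, AEMeasurable (fun w => ‖H (r i • w)‖ₑ) (qm μ K B) := fun i =>
    ((hH.comp (measurable_const_smul (r i))).enorm).aemeasurable
  refine ⟨(Measurable.tsum fun i => hH.comp (measurable_const_smul (r i))).aestronglyMeasurable,
    ?_⟩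
  rw [← lintegral_tsum hm] at h1
  refine lt_of_le_of_lt (lintegral_mono fun w => ?_) (lt_top_iff_ne_top.2 h1)
  exact enorm_tsum_le_tsum_enorm

/-- **unfolding**, complex functions -/
theorem unfold_integral :
    ∫ w, ∑' i, H (r i • w) ∂(qm μ K B) = ∫ w in P, H w ∂μ := by
  have hc := hr.countable
  have h1 := tsum_enorm_ne_top hK hr hP hH hinv hint
  have hms : ∀ i, Measurable fun w : X => r i • w := fun i => measurable_const_smul (r i)
  set κ : Measure X := Measure.sum fun i => (qm μ K B).map (fun w => r i • w) with hκ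
  have hle := invSigma_le (X := X) T
  have htr : κ.trim hle = (μ.restrict P).trim hle := by
    refine @Measure.ext X (invSigma X T) _ _ fun s hs => ?_
    rw [trim_measurableSet_eq hle hs, trim_measurableSet_eq hle hs, hκ,
      Measure.sum_apply _ hs.1]
    have h2 := unfold_lintegral hK hr hP (H := s.indicator 1) (measurable_one.indicator hs.1)
      (fun t ht x => by
        by_cases hx : x ∈ s
        · rw [indicator_of_mem hx, indicator_of_mem ((hs.2 t ht x).2 hx)]; rfl
        · rw [indicator_of_notMem hx, indicator_of_notMem (fun h => hx ((hs.2 t ht x).1 h))])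
    rw [lintegral_indicator_one hs.1] at h2
    rw [← h2, lintegral_tsum (f := fun i w => s.indicator (1 : X → ℝ≥0∞) (r i • w)) fun i =>
      ((measurable_one.indicator hs.1).comp (hms i)).aemeasurable]
    refine tsum_congr fun i => ?_
    rw [Measure.map_apply (hms i) hs.1, ← lintegral_indicator_one ((hms i) hs.1)]
    rfl
  have hsm : StronglyMeasurable[invSigma X T] H :=
    (measurable_invSigma hH hinv).stronglyMeasurable
  have hintκ : Integrable H κ := by
    refine ⟨hH.aestronglyMeasurable, ?_⟩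
    rw [HasFiniteIntegral, hκ, lintegral_sum_measure]
    have : ∀ i, ∫⁻ a, ‖H a‖ₑ ∂((qm μ K B).map (fun w => r i • w))
        = ∫⁻ w, ‖H (r i • w)‖ₑ ∂(qm μ K B) := fun i => lintegral_map hH.enorm (hms i)
    simp only [this]
    exact lt_top_iff_ne_top.2 h1
  calc ∫ w, ∑' i, H (r i • w) ∂(qm μ K B)
      = ∑' i, ∫ w, H (r i • w) ∂(qm μ K B) :=
        integral_tsum (fun i => (hH.comp (hms i)).aestronglyMeasurable) h1
    _ = ∑' i, ∫ w, H w ∂((qm μ K B).map (fun w => r i • w)) := by
        refine tsum_congr fun i => ?_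
        rw [integral_map (hms i).aemeasurable hH.aestronglyMeasurable]
    _ = ∫ w, H w ∂κ := (integral_sum_measure hintκ).symm
    _ = ∫ w, H w ∂(κ.trim hle) := integral_trim hle hsm
    _ = ∫ w, H w ∂((μ.restrict P).trim hle) := by rw [htr]
    _ = ∫ w in P, H w ∂μ := (integral_trim hle hsm).symm

end unfoldC

section Eis

variable [Countable G] [MeasurableConstSMul G X] {μ : Measure X}
    [SMulInvariantMeasure G X μ] {K : X → ℝ≥0∞} (hK : IsBase G K) {T B : Subgroup G} {r : ι → G}
    (hr : IsTransversal T B r) {P : Set X} (hP : IsFundamentalDomain T P μ)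

include hr in
omit [SMulInvariantMeasure G X μ] in
theorem measurable_Eis (χ : G → ℂ) {ψ : X → ℂ} (hψ : Measurable ψ) :
    Measurable (Eis r χ ψ) := by
  have hc := hr.countable
  exact Measurable.tsum fun i => (hψ.comp (measurable_const_smul (r i))).const_mul _

include hK hr hP in
/-- **unfolding of an Eisenstein series** against an automorphic function -/
theorem unfold_Eis {χ : G → ℂ} (hT : ∀ t ∈ T, χ t = 1) {ψ F : X → ℂ}
    (hψ : Measurable ψ) (hψi : Inv T ψ) (hF : Measurable F) (hFa : Aut B χ F)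
    (hint : Integrable (fun w => ψ w * (starRingEnd ℂ) (F w)) (μ.restrict P)) :
    Integrable (fun w => Eis r χ ψ w * (starRingEnd ℂ) (F w)) (qm μ K B) ∧
    ∫ w, Eis r χ ψ w * (starRingEnd ℂ) (F w) ∂(qm μ K B)
      = ∫ w in P, ψ w * (starRingEnd ℂ) (F w) ∂μ := by
  have hm : Measurable fun w => ψ w * (starRingEnd ℂ) (F w) :=
    hψ.mul (Complex.continuous_conj.measurable.comp hF)
  have hi : Inv T fun w => ψ w * (starRingEnd ℂ) (F w) := fun t ht w => by
    simp only []
    rw [hψi t ht, hFa t (hr.le ht), hT t ht, one_mul]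
  have e : ∀ w, ∑' i, ψ (r i • w) * (starRingEnd ℂ) (F (r i • w))
      = Eis r χ ψ w * (starRingEnd ℂ) (F w) := by
    intro w
    rw [Eis, ← tsum_mul_right]
    refine tsum_congr fun i => ?_
    rw [hFa _ (hr.mem i), map_mul]
    ring
  have h1 := integrable_tsum hK hr hP hm hi hint
  have h2 := unfold_integral hK hr hP hm hi hint
  simp only [e] at h1 h2
  exact ⟨h1, h2⟩

end Eis

end Vale.Agent.P006.H9
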