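import Vale.Agent.P006.H9.Count
import Vale.Agent.P006.H9.Unfold
import Mathlib.Analysis.SpecialFunctions.Exp
import Mathlib.Analysis.SpecificLimits.Normed
import Mathlib.Topology.Algebra.InfiniteSum.NatInt

/-!
P006, block H: covering number of the strip under `SL₂(O)`, the base function for the kernels,
the quotient measures `qB B` on `H3`.
-/

namespace Vale.Agent.P006.H9

open Matrix Complex ENNReal Set MeasureTheory

/-- a `tsum` of indicators is bounded as soon as all finite subsets are -/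
theorem tsum_indicator_le {α : Type*} (A : Set α) {C : ℝ}
    (h : ∀ S : Finset α, (∀ x ∈ S, x ∈ A) → (S.card : ℝ) ≤ C) :
    ∑' x, A.indicator (1 : α → ℝ≥0∞) x ≤ ENNReal.ofReal C := by
  classical
  rw [ENNReal.tsum_eq_iSup_sum]
  refine iSup_le fun S => ?_
  have h1 : ∑ x ∈ S, A.indicator (1 : α → ℝ≥0∞) x = ((S.filter fun x => x ∈ A).card : ℝ≥0∞) := by
    rw [Finset.card_eq_sum_ones, Finset.sum_filter]
    push_cast
    refine Finset.sum_congr rfl fun x _ => ?_
    by_cases hx : x ∈ A <;> simp [hx]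
  rw [h1]
  have h2 := h (S.filter fun x => x ∈ A) fun x hx => (Finset.mem_filter.1 hx).2
  rw [← ENNReal.ofReal_natCast]
  exact ENNReal.ofReal_le_ofReal h2

/-- the part of the strip above height `v0` -/
def Ptop (v0 : ℝ) : Set H3 := P3 ∩ {w | v0 < w.v}

theorem measurableSet_Ptop (v0 : ℝ) : MeasurableSet (Ptop v0) :=
  measurableSet_P3.inter (measurableSet_lt measurable_const H3.measurable_v)

/-- **covering number of the strip**: at most `C (1 + v0⁻²)` of the points `g w`, `g ∈ SL₂(O)`,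
lie in the period parallelogram at height above `v0`. -/
theorem card_covering (w : H3) {v0 : ℝ} (hv0 : 0 < v0) (S : Finset (SpecialLinearGroup (Fin 2) O))
    (hS : ∀ g ∈ S, g • w ∈ Ptop v0) : (S.card : ℝ) ≤ 6400 * (1 + (v0 ^ 2)⁻¹) := by
  classical
  let ρ : SpecialLinearGroup (Fin 2) O → O × O := fun g => (g 1 0, g 1 1)
  have h1 : ((S.image ρ).card : ℝ) ≤ 6 + 256 * (1 / v0) ^ 2 := by
    refine card_rows_le w _ fun p hp => ?_
    obtain ⟨g, hg, rfl⟩ := Finset.mem_image.1 hp
    refine ⟨KU.isCoprime_row g, ?_⟩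
    have h2 : v0 < (g • w).v := (hS g hg).2
    rw [v_smul] at h2
    have h3 : 0 < Q w (toC (g 1 0)) (toC (g 1 1)) := by
      have := (g • w).v_pos
      rw [v_smul] at this
      exact one_div_pos.1 this
    rw [lt_div_iff₀ h3] at h2
    show Q w (toC (g 1 0)) (toC (g 1 1)) ≤ 1 / v0
    rw [le_div_iff₀ hv0]
    linarith
  have h2 : ∀ p ∈ S.image ρ, (S.filter fun g => ρ g = p).card ≤ 25 := by
    intro p hp
    obtain ⟨g0, hg0, rfl⟩ := Finset.mem_image.1 hp
    -- `g = tr x * g0` with `x` in a small set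
    let τ : SpecialLinearGroup (Fin 2) O → ℤ × ℤ := fun g =>
      ((g0 0 0 * g 0 1 - g0 0 1 * g 0 0 : O).re, (g0 0 0 * g 0 1 - g0 0 1 * g 0 0 : O).im)
    have hτ : ∀ g ∈ S.filter (fun g => ρ g = ρ g0),
        g = KU.tr (g0 0 0 * g 0 1 - g0 0 1 * g 0 0) * g0 := by
      intro g hg
      have h3 := (Finset.mem_filter.1 hg).2
      exact KU.eq_tr_mul_of_row (congrArg Prod.fst h3) (congrArg Prod.snd h3)
    have hinj : Set.InjOn τ (S.filter fun g => ρ g = ρ g0) := by
      intro g hg h hh e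
      rw [hτ g hg, hτ h hh]
      congr 2
      exact QuadraticAlgebra.ext (congrArg Prod.fst e) (congrArg Prod.snd e)
    rw [← Finset.card_image_of_injOn hinj]
    have hsub : (S.filter fun g => ρ g = ρ g0).image τ ⊆ Finset.Icc (-2) 2 ×ˢ Finset.Icc (-2) 2 := by
      intro q hq
      obtain ⟨g, hg, rfl⟩ := Finset.mem_image.1 hq
      set x : O := g0 0 0 * g 0 1 - g0 0 1 * g 0 0 with hx
      have e1 : g = KU.tr x * g0 := hτ g hg
      have hgS := (Finset.mem_filter.1 hg).1
      have h3 : (g • w).z ∈ box := (hS g hgS).1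
      have h4 : (g0 • w).z ∈ box := (hS g0 hg0).1
      rw [e1, mul_smul, tr_smul, H3.mk_z] at h3
      obtain ⟨⟨a1, a2⟩, a3, a4⟩ := h3
      obtain ⟨⟨b1, b2⟩, b3, b4⟩ := h4
      rw [cx_add, cx_toC] at a1 a2
      rw [cy_add, cy_toC] at a3 a4
      show (x.re, x.im) ∈ _
      rw [Finset.mem_product, Finset.mem_Icc, Finset.mem_Icc]
      have c1 : (-3 : ℝ) < x.re := by linarith
      have c2 : (x.re : ℝ) < 3 := by linarith
      have c3 : (-3 : ℝ) < x.im := by linarith
      have c4 : (x.im : ℝ) < 3 := by linarith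
      have d1 : (-3 : ℤ) < x.re := by exact_mod_cast c1
      have d2 : x.re < (3 : ℤ) := by exact_mod_cast c2
      have d3 : (-3 : ℤ) < x.im := by exact_mod_cast c3
      have d4 : x.im < (3 : ℤ) := by exact_mod_cast c4
      simp only []
      omega
    exact (Finset.card_le_card hsub).trans (by decide)
  have h3 := Finset.card_le_mul_card_image S 25 h2
  have h4 : (S.card : ℝ) ≤ 25 * ((S.image ρ).card : ℝ) := by exact_mod_cast h3
  have h5 : (1 / v0) ^ 2 = (v0 ^ 2)⁻¹ := by rw [one_div, inv_pow]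
  rw [h5] at h1
  have h6 : 0 ≤ (v0 ^ 2)⁻¹ := by positivity
  linarith

theorem tsum_covering (w : H3) {v0 : ℝ} (hv0 : 0 < v0) :
    ∑' g : SpecialLinearGroup (Fin 2) O, (Ptop v0).indicator (1 : H3 → ℝ≥0∞) (g • w)
      ≤ ENNReal.ofReal (6400 * (1 + (v0 ^ 2)⁻¹)) := by
  have h := tsum_indicator_le {g : SpecialLinearGroup (Fin 2) O | g • w ∈ Ptop v0}
    (C := 6400 * (1 + (v0 ^ 2)⁻¹)) fun S hS => card_covering w hv0 S hS
  refine le_trans (le_of_eq ?_) h
  refine tsum_congr fun g => ?_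
  by_cases hg : g • w ∈ Ptop v0
  · rw [indicator_of_mem hg, indicator_of_mem (by exact hg)]; rfl
  · rw [indicator_of_notMem hg, indicator_of_notMem (by exact hg)]

/-! ### the base function -/

theorem summable_exp_int {δ : ℝ} (hδ : 0 < δ) : Summable fun n : ℤ => Real.exp (-(δ * (n : ℝ) ^ 2)) := by
  have h1 : Summable fun n : ℕ => Real.exp (-(δ * (n : ℝ) ^ 2)) := by
    have h2 : Summable fun n : ℕ => (Real.exp (-δ)) ^ n :=
      summable_geometric_of_lt_one (Real.exp_pos _).le (by rw [Real.exp_lt_one_iff]; linarith)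
    refine Summable.of_nonneg_of_le (fun n => (Real.exp_pos _).le) (fun n => ?_) h2
    rw [← Real.exp_nat_mul]
    apply Real.exp_le_exp.2
    have h3 : (n : ℝ) ≤ (n : ℝ) ^ 2 := by
      have : n ≤ n ^ 2 := Nat.le_self_pow (by norm_num) n
      exact_mod_cast this
    nlinarith
  refine Summable.of_nat_of_neg ?_ ?_
  · simpa using h1
  · simpa using h1

theorem tsum_exp_O_ne_top {δ : ℝ} (hδ : 0 < δ) :
    ∑' x : O, ENNReal.ofReal (Real.exp (-(δ * normSq (toC x)))) ≠ ∞ := by
  have h1 : Summable fun p : ℤ × ℤ => Real.exp (-(δ / 2 * (p.1 : ℝ) ^ 2)) *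
      Real.exp (-(δ / 2 * (p.2 : ℝ) ^ 2)) :=
    (summable_exp_int (half_pos hδ)).mul_of_nonneg (summable_exp_int (half_pos hδ))
      (fun _ => (Real.exp_pos _).le) (fun _ => (Real.exp_pos _).le)
  have hinj : Function.Injective (fun x : O => ((x.re, x.im) : ℤ × ℤ)) := fun x y h =>
    QuadraticAlgebra.ext (congrArg Prod.fst h) (congrArg Prod.snd h)
  have h2 := h1.comp_injective hinj
  have h3 : Summable fun x : O => Real.exp (-(δ * normSq (toC x))) := by
    refine Summable.of_nonneg_of_le (fun _ => (Real.exp_pos _).le) (fun x => ?_) h2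
    show Real.exp (-(δ * normSq (toC x))) ≤ Real.exp (-(δ / 2 * (x.re : ℝ) ^ 2)) *
      Real.exp (-(δ / 2 * (x.im : ℝ) ^ 2))
    rw [← Real.exp_add]
    apply Real.exp_le_exp.2
    have h4 : normSq (toC x) = (x.re : ℝ) ^ 2 - x.re * x.im + (x.im : ℝ) ^ 2 := by
      rw [← N_cast_real]
      have : (N x : ℝ) = ((N x : ℤ) : ℝ) := by simp
      rw [this, N_cast_int']; push_cast; ring
    rw [h4]
    nlinarith [sq_nonneg ((x.re : ℝ) - x.im)]
  exact h3.tsum_ofReal_ne_top

/-- lower bound of the hermitian form -/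
theorem Q_lower (w : H3) (c d : ℂ) :
    (1 / w.v + 2 * w.v + 2 * normSq w.z / w.v)⁻¹ * (normSq c + normSq d) ≤ Q w c d := by
  have hv := w.v_pos
  have hD : 0 < 1 / w.v + 2 * w.v + 2 * normSq w.z / w.v := by
    have := normSq_nonneg w.z
    positivity
  rw [inv_mul_le_iff₀ hD]
  have h1 : normSq d ≤ 2 * normSq (c * w.z + d) + 2 * normSq (c * w.z) := by
    have e : d = (c * w.z + d) - c * w.z := by ring
    have : normSq ((c * w.z + d) - c * w.z) + normSq ((c * w.z + d) + c * w.z)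
        = 2 * (normSq (c * w.z + d) + normSq (c * w.z)) := by
      simp only [normSq_apply, add_re, add_im, sub_re, sub_im]; ring
    have h2 := normSq_nonneg ((c * w.z + d) + c * w.z)
    rw [← e] at this
    linarith
  rw [normSq_mul] at h1
  have h2 := normSq_nonneg (c * w.z + d)
  have h3 := normSq_nonneg c
  have h4 := normSq_nonneg w.z
  rw [Q, den]
  have e : (1 / w.v + 2 * w.v + 2 * normSq w.z / w.v) *
      ((normSq (c * w.z + d) + normSq c * w.v ^ 2) / w.v)
      = (1 + 2 * w.v ^ 2 + 2 * normSq w.z) * (normSq (c * w.z + d) / w.v ^ 2 + normSq c) := by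
    field_simp
  rw [e]
  have h5 : 0 ≤ normSq (c * w.z + d) / w.v ^ 2 := by positivity
  have h6 : 2 * normSq (c * w.z + d) = 2 * w.v ^ 2 * (normSq (c * w.z + d) / w.v ^ 2) := by
    field_simp
  rw [h6] at h1
  nlinarith [mul_nonneg h4 h5, mul_nonneg h3 (sq_nonneg w.v)]

/-- `∑_{(c, d) ∈ O²} exp (- Q w c d) < ∞` -/
theorem tsum_exp_Q_ne_top (w : H3) :
    ∑' p : O × O, ENNReal.ofReal (Real.exp (-(Q w (toC p.1) (toC p.2)))) ≠ ∞ := by
  set δ := (1 / w.v + 2 * w.v + 2 * normSq w.z / w.v)⁻¹ with hδ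
  have hδ0 : 0 < δ := by
    have := normSq_nonneg w.z
    have hv := w.v_pos
    positivity
  have h1 : ∑' p : O × O, ENNReal.ofReal (Real.exp (-(Q w (toC p.1) (toC p.2))))
      ≤ ∑' p : O × O, ENNReal.ofReal (Real.exp (-(δ * normSq (toC p.1)))) *
        ENNReal.ofReal (Real.exp (-(δ * normSq (toC p.2)))) := by
    refine ENNReal.tsum_le_tsum fun p => ?_
    rw [← ENNReal.ofReal_mul (Real.exp_pos _).le, ← Real.exp_add]
    apply ENNReal.ofReal_le_ofReal
    apply Real.exp_le_exp.2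
    have := Q_lower w (toC p.1) (toC p.2)
    rw [← hδ] at this
    linarith
  refine ne_top_of_le_ne_top ?_ h1
  rw [ENNReal.tsum_prod (f := fun a b : O => ENNReal.ofReal (Real.exp (-(δ * normSq (toC a)))) *
        ENNReal.ofReal (Real.exp (-(δ * normSq (toC b)))))]
  simp only [ENNReal.tsum_mul_left, ENNReal.tsum_mul_right]
  exact ENNReal.mul_ne_top (tsum_exp_O_ne_top hδ0) (tsum_exp_O_ne_top hδ0)

/-- the base function `exp (- Q(1,0) - Q(0,1))` -/
noncomputable def baseK (w : H3) : ℝ≥0∞ := ENNReal.ofReal (Real.exp (-(Q w 1 0) - Q w 0 1))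

theorem baseK_smul (g : SpecialLinearGroup (Fin 2) O) (w : H3) :
    baseK (g • w) = ENNReal.ofReal (Real.exp (-(Q w (toC (g 0 0)) (toC (g 0 1))))) *
      ENNReal.ofReal (Real.exp (-(Q w (toC (g 1 0)) (toC (g 1 1))))) := by
  have h1 := Q_smul g w 1 0
  have h2 := Q_smul g w 0 1
  simp only [map_one, map_zero, one_mul, zero_mul, add_zero, zero_add] at h1 h2
  rw [baseK, h1, h2, ← ENNReal.ofReal_mul (Real.exp_pos _).le, ← Real.exp_add, sub_eq_add_neg]

theorem isBase_baseK : IsBase (SpecialLinearGroup (Fin 2) O) baseK where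
  meas := by
    unfold baseK
    have h1 : Measurable fun w : H3 => Q w 1 0 := (continuous_Q 1 0).measurable
    have h2 : Measurable fun w : H3 => Q w 0 1 := (continuous_Q 0 1).measurable
    fun_prop
  ne_zero w := by
    unfold baseK
    exact (ENNReal.ofReal_pos.2 (Real.exp_pos _)).ne'
  ne_top w := by
    simp only [baseK_smul]
    have hinj : Function.Injective (fun g : SpecialLinearGroup (Fin 2) O =>
        (((g 0 0, g 0 1), (g 1 0, g 1 1)) : (O × O) × (O × O))) := by
      intro g h e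
      simp only [Prod.mk.injEq] at e
      exact KU.ext2 e.1.1 e.1.2 e.2.1 e.2.2
    refine ne_top_of_le_ne_top ?_ (ENNReal.tsum_comp_le_tsum_of_injective hinj
      (fun p : (O × O) × (O × O) => ENNReal.ofReal (Real.exp (-(Q w (toC p.1.1) (toC p.1.2)))) *
      ENNReal.ofReal (Real.exp (-(Q w (toC p.2.1) (toC p.2.2))))))
    rw [ENNReal.tsum_prod (f := fun a b : O × O =>
      ENNReal.ofReal (Real.exp (-(Q w (toC a.1) (toC a.2)))) *
      ENNReal.ofReal (Real.exp (-(Q w (toC b.1) (toC b.2)))))]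
    simp only [ENNReal.tsum_mul_left, ENNReal.tsum_mul_right]
    exact ENNReal.mul_ne_top (tsum_exp_Q_ne_top w) (tsum_exp_Q_ne_top w)

/-- the measure that represents integration over `B \ H3` -/
noncomputable def qB (B : Subgroup (SpecialLinearGroup (Fin 2) O)) : Measure H3 :=
  qm muH baseK B

/-- **universal strip inequality**: for every subgroup `B` of `SL₂(O)`, every `σ ∈ SL₂(O)` and
every `B`-invariant `F ≥ 0` -/
theorem strip_ineq {B : Subgroup (SpecialLinearGroup (Fin 2) O)} {F : H3 → ℝ≥0∞}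
    (hF : Measurable F) (hFi : Inv B F) (σ : SpecialLinearGroup (Fin 2) O) {v0 : ℝ}
    (hv0 : 0 < v0) :
    ∫⁻ w in Ptop v0, F (σ • w) ∂muH
      ≤ ENNReal.ofReal (6400 * (1 + (v0 ^ 2)⁻¹)) * ∫⁻ w, F w ∂(qB B) :=
  strip_le muH isBase_baseK hF hFi (measurableSet_Ptop v0) (fun w => tsum_covering w hv0) σ

end Vale.Agent.P006.H9
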