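import Vale.Agent.P006.H9.Base

/-!
P006, block H: the groups `Gam q = Γ(3) ∩ Γ₀(q)`, the rows `PP q`, the transversal of
`(translations by 3 O) \ Gam q` given by the rows, and the index `[Gam 1 : Gam p] = N p + 1`.
-/

namespace Vale.Agent.P006.H9

open Matrix Complex ENNReal Set MeasureTheory

/-- `Γ(3) ∩ Γ₀(q)` -/
def Gam (q : O) : Subgroup (SpecialLinearGroup (Fin 2) O) where
  carrier := {g | g ∈ KU.Gamma3 O ∧ q ∣ g 1 0}
  mul_mem' := by
    rintro g h ⟨g1, g2⟩ ⟨h1, h2⟩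
    refine ⟨Subgroup.mul_mem _ g1 h1, ?_⟩
    rw [KU.mul_10]
    exact dvd_add (g2.mul_right _) (h2.mul_left _)
  one_mem' := ⟨Subgroup.one_mem _, by simp⟩
  inv_mem' := by
    rintro g ⟨g1, g2⟩
    refine ⟨Subgroup.inv_mem _ g1, ?_⟩
    rw [KU.inv_10]
    exact (dvd_neg).2 g2

theorem mem_Gam {q : O} {g : SpecialLinearGroup (Fin 2) O} :
    g ∈ Gam q ↔ g ∈ KU.Gamma3 O ∧ q ∣ g 1 0 := Iff.rfl

theorem Gam_le_Gamma3 (q : O) : Gam q ≤ KU.Gamma3 O := fun _ h => h.1

theorem Gam_le {q q' : O} (h : q ∣ q') : Gam q' ≤ Gam q := fun _ hg => ⟨hg.1, h.trans hg.2⟩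

theorem Gam_le_one (q : O) : Gam q ≤ Gam 1 := Gam_le (one_dvd q)

theorem Gamma3_le_Gam_one : KU.Gamma3 O ≤ Gam 1 := fun _ h => ⟨h, one_dvd _⟩

theorem Gam_one : Gam 1 = KU.Gamma3 O := le_antisymm (Gam_le_Gamma3 1) Gamma3_le_Gam_one

theorem T3_le_Gam (q : O) : T3 ≤ Gam q := by
  intro g hg
  refine ⟨T3_le hg, ?_⟩
  obtain ⟨x, _, rfl⟩ := hg
  simp [KU.tr]

/-- the rows `(c, d)`: coprime, `3 ∣ c`, `q ∣ c`, `d ≡ 1 mod 3` -/
def PP (q : O) : Set (O × O) :=
  {p | IsCoprime p.1 p.2 ∧ (3 : O) ∣ p.1 ∧ q ∣ p.1 ∧ (3 : O) ∣ p.2 - 1}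

theorem row_mem_PP {q : O} {g : SpecialLinearGroup (Fin 2) O} (hg : g ∈ Gam q) :
    ((g 1 0, g 1 1) : O × O) ∈ PP q :=
  ⟨KU.isCoprime_row g, hg.1.2.2.1, hg.2, hg.1.2.2.2⟩

theorem exists_rrep {q : O} (p : PP q) : ∃ g : SpecialLinearGroup (Fin 2) O,
    g ∈ Gam q ∧ g 1 0 = p.1.1 ∧ g 1 1 = p.1.2 := by
  obtain ⟨⟨c, d⟩, h1, h2, h3, h4⟩ := p
  obtain ⟨g, hg, e1, e2⟩ := KU.exists_row h2 h4 h1
  refine ⟨g, ⟨hg, ?_⟩, e1, e2⟩
  rw [e1]; exact h3

/-- a matrix with given bottom row -/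
noncomputable def rrep (q : O) (p : PP q) : SpecialLinearGroup (Fin 2) O := (exists_rrep p).choose

theorem rrep_mem {q : O} (p : PP q) : rrep q p ∈ Gam q := (exists_rrep p).choose_spec.1

@[simp] theorem rrep_10 {q : O} (p : PP q) : rrep q p 1 0 = p.1.1 := (exists_rrep p).choose_spec.2.1

@[simp] theorem rrep_11 {q : O} (p : PP q) : rrep q p 1 1 = p.1.2 := (exists_rrep p).choose_spec.2.2

theorem isTransversal_rrep (q : O) : IsTransversal T3 (Gam q) (rrep q) where
  le := T3_le_Gam q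
  mem := rrep_mem
  surj g hg := by
    set p : PP q := ⟨(g 1 0, g 1 1), row_mem_PP hg⟩ with hp
    set h := rrep q p with hh
    refine ⟨KU.tr (h 0 0 * g 0 1 - h 0 1 * g 0 0), ⟨_, ?_, rfl⟩, p, ?_⟩
    · exact dvd_sub (hg.1.2.1.mul_left _) ((rrep_mem p).1.2.1.mul_right _)
    · exact KU.eq_tr_mul_of_row (by rw [hh, rrep_10]) (by rw [hh, rrep_11])
  inj p p' t ht h := by
    obtain ⟨x, _, rfl⟩ := ht
    have h1 := congrArg (fun g : SpecialLinearGroup (Fin 2) O => g 1 0) h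
    have h2 := congrArg (fun g : SpecialLinearGroup (Fin 2) O => g 1 1) h
    simp only [KU.mul_10, KU.mul_11, rrep_10, rrep_11] at h1 h2
    simp only [KU.tr, KU.mk2_10, KU.mk2_11, zero_mul, one_mul, zero_add] at h1 h2
    exact Subtype.ext (Prod.ext h1 h2)

theorem v_rrep_smul {q : O} (p : PP q) (w : H3) :
    (rrep q p • w).v = 1 / Q w (toC p.1.1) (toC p.1.2) := by
  rw [v_smul, rrep_10, rrep_11]

/-! ### the index of `Gam p` -/

theorem mem_Gam_inv_mul {p : O} {g h : SpecialLinearGroup (Fin 2) O} (hg : g ∈ KU.Gamma3 O)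
    (hh : h ∈ KU.Gamma3 O) : g⁻¹ * h ∈ Gam p ↔ p ∣ g 0 0 * h 1 0 - g 1 0 * h 0 0 := by
  rw [mem_Gam, KU.mul_10, KU.inv_10, KU.inv_11]
  constructor
  · rintro ⟨-, h2⟩
    convert h2 using 1; ring
  · intro h2
    refine ⟨Subgroup.mul_mem _ (Subgroup.inv_mem _ hg) hh, ?_⟩
    convert h2 using 1; ring

/-- `[Gam 1 : Gam p] = N p + 1` for a prime `p` not dividing `3` -/
theorem index_Gam {p : O} (hp : Prime p) (hp3 : IsCoprime (3 : O) p) :
    ((Gam p).subgroupOf (Gam 1)).index = N p + 1 := by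
  classical
  have : Fact (Prime p) := ⟨hp⟩
  -- the map to the projective line
  let φ : Gam 1 → Option (Rs p) := fun g =>
    if rs p ((g : SpecialLinearGroup (Fin 2) O) 1 0) = 0 then none
    else some (rs p ((g : SpecialLinearGroup (Fin 2) O) 0 0) *
      (rs p ((g : SpecialLinearGroup (Fin 2) O) 1 0))⁻¹)
  have hφ : ∀ g h : Gam 1, φ g = φ h ↔ g⁻¹ * h ∈ (Gam p).subgroupOf (Gam 1) := by
    intro g h
    rw [Subgroup.mem_subgroupOf, Subgroup.coe_mul, Subgroup.coe_inv,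
      mem_Gam_inv_mul g.2.1 h.2.1, ← rs_eq]
    set a := rs p ((g : SpecialLinearGroup (Fin 2) O) 0 0) with ha
    set c := rs p ((g : SpecialLinearGroup (Fin 2) O) 1 0) with hc
    set a' := rs p ((h : SpecialLinearGroup (Fin 2) O) 0 0) with ha'
    set c' := rs p ((h : SpecialLinearGroup (Fin 2) O) 1 0) with hc'
    rw [map_mul, map_mul, ← ha, ← hc, ← ha', ← hc']
    -- nonvanishing of the columns
    have hcol : ¬ (a = 0 ∧ c = 0) := by
      rintro ⟨h1, h2⟩
      rw [ha, rs_eq_zero] at h1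
      rw [hc, rs_eq_zero] at h2
      have hd := KU.det_eq (g : SpecialLinearGroup (Fin 2) O)
      have : p ∣ 1 := by
        rw [← hd]
        exact dvd_sub (h1.mul_right _) (h2.mul_left _)
      exact hp.not_isUnit (isUnit_of_dvd_one this)
    have hcol' : ¬ (a' = 0 ∧ c' = 0) := by
      rintro ⟨h1, h2⟩
      rw [ha', rs_eq_zero] at h1
      rw [hc', rs_eq_zero] at h2
      have hd := KU.det_eq (h : SpecialLinearGroup (Fin 2) O)
      have : p ∣ 1 := by
        rw [← hd]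
        exact dvd_sub (h1.mul_right _) (h2.mul_left _)
      exact hp.not_isUnit (isUnit_of_dvd_one this)
    have e1 : φ g = if c = 0 then none else some (a * c⁻¹) := rfl
    have e2 : φ h = if c' = 0 then none else some (a' * c'⁻¹) := rfl
    rw [e1, e2]
    by_cases h1 : c = 0 <;> by_cases h2 : c' = 0
    · simp [h1, h2]
    · simp only [h1, h2, if_true, if_false, zero_mul]
      constructor
      · intro h; simp at h
      · intro h
        exfalso
        rcases mul_eq_zero.1 h with h3 | h3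
        · exact hcol ⟨h3, h1⟩
        · exact h2 h3
    · simp only [h1, h2, if_true, if_false, mul_zero]
      constructor
      · intro h; simp at h
      · intro h
        exfalso
        rcases mul_eq_zero.1 h.symm with h3 | h3
        · exact h1 h3
        · exact hcol' ⟨h3, h2⟩
    · simp only [h1, h2, if_false, Option.some.injEq]
      rw [← div_eq_mul_inv, ← div_eq_mul_inv, div_eq_div_iff h1 h2]
      constructor <;> intro h <;> rw [h] <;> ring
  have hsurj : Function.Surjective φ := by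
    intro x
    cases x with
    | none => exact ⟨1, by simp [φ]⟩
    | some x =>
      obtain ⟨y, rfl⟩ := rs_surj p x
      obtain ⟨u, t, hut⟩ := hp3
      -- `a ≡ 1 mod 3`, `a ≡ 3 y mod p`
      set a : O := t * p + 3 * y * (u * 3) with ha
      have h3a : (3 : O) ∣ a - 1 := ⟨3 * y * u - u, by
        rw [ha]; linear_combination hut⟩
      have hpa : p ∣ a - 3 * y := ⟨t - 3 * y * t, by
        rw [ha]; linear_combination (3 * y) * hut⟩
      have hcop : IsCoprime (-3 : O) a := by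
        obtain ⟨m, hm⟩ := h3a
        exact ⟨m, 1, by linear_combination hm⟩
      obtain ⟨h, hh, e1, e2⟩ := KU.exists_row (c := (-3 : O)) (d := a)
        ((dvd_neg).2 dvd_rfl) h3a hcop
      have hg : h⁻¹ ∈ Gam 1 := Gamma3_le_Gam_one (Subgroup.inv_mem _ hh)
      refine ⟨⟨h⁻¹, hg⟩, ?_⟩
      have f1 : h⁻¹ 1 0 = 3 := by rw [KU.inv_10, e1]; ring
      have f2 : h⁻¹ 0 0 = a := by rw [KU.inv_00, e2]
      have h30 : rs p 3 ≠ 0 := by
        rw [Ne, rs_eq_zero]
        intro h3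
        exact hp.not_isUnit (IsCoprime.isUnit_of_dvd' ⟨u, t, hut⟩ h3 dvd_rfl)
      show (if rs p (h⁻¹ 1 0) = 0 then none else some (rs p (h⁻¹ 0 0) * (rs p (h⁻¹ 1 0))⁻¹)) = _
      rw [f1, f2, if_neg h30, Option.some.injEq, ← div_eq_mul_inv, div_eq_iff h30, ← map_mul, rs_eq]
      convert hpa using 1; ring
  -- the induced bijection
  let ψ : (Gam 1) ⧸ (Gam p).subgroupOf (Gam 1) → Option (Rs p) :=
    Quotient.lift φ (fun g h hgh => (hφ g h).2 (QuotientGroup.leftRel_apply.1 hgh))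
  have hψ : Function.Bijective ψ := by
    constructor
    · intro x y
      induction x using QuotientGroup.induction_on with
      | H g =>
        induction y using QuotientGroup.induction_on with
        | H h =>
          intro e
          exact QuotientGroup.eq.2 ((hφ g h).1 e)
    · intro x
      obtain ⟨g, hg⟩ := hsurj x
      exact ⟨QuotientGroup.mk g, hg⟩
  rw [Subgroup.index, Nat.card_congr (Equiv.ofBijective ψ hψ), Finite.card_option, card_Rs]

end Vale.Agent.P006.H9
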