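import Vale.Agent.P006.H9.Eis

/-!
P006, block H: the level `p` identity and the identity for `E (σ w) - E w`.
-/

namespace Vale.Agent.P006.H9

open Matrix Complex ENNReal Set MeasureTheory

theorem integral_mul_conj {X : Type*} [MeasurableSpace X] {m : Measure X} {F : X → ℂ}
    (hF : Measurable F) :
    ∫ w, F w * (starRingEnd ℂ) (F w) ∂m = ((∫⁻ w, ‖F w‖ₑ ^ 2 ∂m).toReal : ℂ) := by
  have e1 : (fun w => F w * (starRingEnd ℂ) (F w)) = fun w => ((‖F w‖ ^ 2 : ℝ) : ℂ) := by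
    ext w; rw [Complex.mul_conj, normSq_eq_norm_sq]
  rw [e1]
  have h1 := integral_ofReal (μ := m) (f := fun w => ‖F w‖ ^ 2) (𝕜 := ℂ)
  have h2 := integral_eq_lintegral_of_nonneg_ae (μ := m) (f := fun w => ‖F w‖ ^ 2)
    (Filter.Eventually.of_forall fun w => by positivity) (hF.norm.pow_const 2).aestronglyMeasurable
  have h3 : ∫⁻ w, ENNReal.ofReal (‖F w‖ ^ 2) ∂m = ∫⁻ w, ‖F w‖ₑ ^ 2 ∂m := by
    refine lintegral_congr fun w => ?_
    rw [ENNReal.ofReal_pow (norm_nonneg _), ofReal_norm]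
  rw [h3] at h2
  rw [← h2]
  exact h1

/-- complex conjugation under the integral -/
theorem integral_conj_swap {X : Type*} [MeasurableSpace X] {m : Measure X} (F G : X → ℂ) :
    ∫ w, G w * (starRingEnd ℂ) (F w) ∂m
      = (starRingEnd ℂ) (∫ w, F w * (starRingEnd ℂ) (G w) ∂m) := by
  rw [← integral_conj]
  refine integral_congr_ae (Filter.Eventually.of_forall fun w => ?_)
  simp only [map_mul, Complex.conj_conj]
  ring

theorem integrable_conj_swap {X : Type*} [MeasurableSpace X] {m : Measure X} {F G : X → ℂ}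
    (h : Integrable (fun w => F w * (starRingEnd ℂ) (G w)) m) :
    Integrable (fun w => G w * (starRingEnd ℂ) (F w)) m := by
  have h1 := (Complex.conjCLE : ℂ →L[ℝ] ℂ).integrable_comp h
  refine h1.congr (Filter.Eventually.of_forall fun w => ?_)
  simp [mul_comm]

theorem lintegral_level {p : O} (hp : Prime p) (hp3 : IsCoprime (3 : O) p) {F : H3 → ℝ≥0∞}
    (hF : Measurable F) (hFi : Inv (Gam 1) F) :
    ∫⁻ w, F w ∂(qB (Gam p)) = ((N p + 1 : ℕ) : ℝ≥0∞) * ∫⁻ w, F w ∂(qB (Gam 1)) :=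
  lintegral_qm_index muH isBase_baseK (Gam_le_one p) (index_Gam hp hp3) (by omega) hF hFi

section level

variable {η : O → O → ℂ} (hη : RowChar η) {f : ℝ → ℂ} (hf : Measurable f)
  {A : ℝ} (hfd : Decay f A)

/-- the difference between the Eisenstein series of level `p` and its projection to level `1` -/
noncomputable def Ediff (p : O) (η : O → O → ℂ) (f : ℝ → ℂ) (w : H3) : ℂ :=
  E p η f w - (((N p + 1 : ℕ) : ℂ))⁻¹ * E 1 η f w

include hη in
theorem Ediff_aut (p : O) : Aut (Gam p) (chiOf η) (Ediff p η f) :=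
  (E_aut hη p f).sub (((E_aut hη 1 f).mono (Gam_le_one p)).const_mul _)

include hf in
theorem measurable_Ediff (p : O) : Measurable (Ediff p η f) :=
  (measurable_E p η hf).sub ((measurable_E 1 η hf).const_mul _)

include hη hfd in
theorem norm_Ediff_le (p : O) (w : H3) : ‖Ediff p η f w‖ ≤ 2 * (A * rowC.toReal) := by
  have h1 := norm_E_le hη hfd p w
  have h2 := norm_E_le hη hfd 1 w
  have h3 : ‖(((N p + 1 : ℕ) : ℂ))⁻¹‖ ≤ 1 := by
    rw [norm_inv, Complex.norm_natCast]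
    apply inv_le_one_of_one_le₀
    push_cast
    have : (0 : ℝ) ≤ N p := Nat.cast_nonneg _
    linarith
  calc ‖Ediff p η f w‖ ≤ ‖E p η f w‖ + ‖(((N p + 1 : ℕ) : ℂ))⁻¹ * E 1 η f w‖ := norm_sub_le _ _
    _ ≤ A * rowC.toReal + 1 * (A * rowC.toReal) := by
        rw [norm_mul]
        gcongr
    _ = 2 * (A * rowC.toReal) := by ring

include hη hf hfd in
/-- **(Gp-id)** -/
theorem norm_Ediff {p : O} (hp : Prime p) (hp3 : IsCoprime (3 : O) p) :
    ∫⁻ w, ‖Ediff p η f w‖ₑ ^ 2 ∂(qB (Gam p))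
      = ENNReal.ofReal
        (∫ w in P3, f (1 / w.v) * (starRingEnd ℂ) (Ediff p η f w) ∂muH).re := by
  set n : ℂ := ((N p + 1 : ℕ) : ℂ) with hn
  have hn0 : n ≠ 0 := by rw [hn]; exact_mod_cast Nat.succ_ne_zero (N p)
  set F := Ediff p η f with hF
  have hFm : Measurable F := measurable_Ediff hf p
  have hE1m := measurable_E 1 η hf
  have hEpm := measurable_E p η hf
  -- level p against F
  obtain ⟨i1, e1⟩ := unfold_E hη hf (q := p) hFm (Ediff_aut hη p)
    (integrable_decay hf hfd hFm (norm_Ediff_le hη hfd p))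
  -- level p against E₁
  obtain ⟨i2, e2⟩ := unfold_E hη hf (q := p) hE1m ((E_aut hη 1 f).mono (Gam_le_one p))
    (integrable_decay hf hfd hE1m (norm_E_le hη hfd 1))
  obtain ⟨i3, e3⟩ := inner_E hη hf hf hfd hfd 1
  -- E₁ against E₁ at level p
  have hinv : Inv (Gam 1) fun w => ‖E 1 η f w‖ₑ ^ 2 := fun g hg w => by
    have := (E_aut hη 1 f).norm_inv (hη.isChar 1) g hg w
    simp only [] at this ⊢
    rw [this]
  have hlev := lintegral_level hp hp3 (hE1m.enorm.pow_const 2) hinv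
  have hlev' : ∫⁻ w, ‖E 1 η f w‖ₑ ^ 2 ∂(qB (Gam p))
      = ((N p + 1 : ℕ) : ℝ≥0∞) * ∫⁻ w, ‖E 1 η f w‖ₑ ^ 2 ∂(qB (Gam 1)) := hlev
  have e4 : ∫ w, E 1 η f w * (starRingEnd ℂ) (E 1 η f w) ∂(qB (Gam p))
      = n * ∫ w, E 1 η f w * (starRingEnd ℂ) (E 1 η f w) ∂(qB (Gam 1)) := by
    rw [integral_mul_conj hE1m, integral_mul_conj hE1m, hlev', ENNReal.toReal_mul,
      ENNReal.toReal_natCast, Complex.ofReal_mul, Complex.ofReal_natCast]
  have hfin1 : ∫⁻ w, ‖E 1 η f w‖ₑ ^ 2 ∂(qB (Gam 1)) ≠ ∞ := by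
    rw [lintegral_enorm_sq i3]; exact ENNReal.ofReal_ne_top
  have i4 : Integrable (fun w => E 1 η f w * (starRingEnd ℂ) (E 1 η f w)) (qB (Gam p)) := by
    refine ⟨(hE1m.mul (Complex.continuous_conj.measurable.comp hE1m)).aestronglyMeasurable, ?_⟩
    rw [HasFiniteIntegral]
    have : ∀ w, ‖E 1 η f w * (starRingEnd ℂ) (E 1 η f w)‖ₑ = ‖E 1 η f w‖ₑ ^ 2 := by
      intro w
      rw [enorm_mul, RCLike.enorm_conj, sq]
    simp only [this, hlev']
    exact ENNReal.mul_lt_top (ENNReal.natCast_lt_top _) (lt_top_iff_ne_top.2 hfin1)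
  -- `∫ E₁ conj F = 0`
  have hreal : (starRingEnd ℂ) (∫ w in P3, f (1 / w.v) * (starRingEnd ℂ) (E 1 η f w) ∂muH)
      = ∫ w in P3, f (1 / w.v) * (starRingEnd ℂ) (E 1 η f w) ∂muH := by
    rw [← e3, integral_mul_conj hE1m, Complex.conj_ofReal]
  have i5 := integrable_conj_swap i2
  have e5 : ∫ w, E 1 η f w * (starRingEnd ℂ) (F w) ∂(qB (Gam p)) = 0 := by
    have hsplit : ∀ w, E 1 η f w * (starRingEnd ℂ) (F w)
        = E 1 η f w * (starRingEnd ℂ) (E p η f w)
          - n⁻¹ * (E 1 η f w * (starRingEnd ℂ) (E 1 η f w)) := by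
      intro w
      rw [hF, Ediff, map_sub, map_mul, map_inv₀, Complex.conj_natCast]
      ring
    simp only [hsplit]
    rw [integral_sub i5 (i4.const_mul _), integral_const_mul, integral_conj_swap, e2, e4, hreal,
      e3]
    field_simp
    ring
  have i6 : Integrable (fun w => E 1 η f w * (starRingEnd ℂ) (F w)) (qB (Gam p)) := by
    have hsplit : (fun w => E 1 η f w * (starRingEnd ℂ) (F w))
        = fun w => E 1 η f w * (starRingEnd ℂ) (E p η f w)
          - n⁻¹ * (E 1 η f w * (starRingEnd ℂ) (E 1 η f w)) := by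
      ext w
      rw [hF, Ediff, map_sub, map_mul, map_inv₀, Complex.conj_natCast]
      ring
    rw [hsplit]
    exact i5.sub (i4.const_mul _)
  have hsplit2 : (fun w => F w * (starRingEnd ℂ) (F w))
      = fun w => E p η f w * (starRingEnd ℂ) (F w) - n⁻¹ * (E 1 η f w * (starRingEnd ℂ) (F w)) := by
    ext w
    have : F w = E p η f w - n⁻¹ * E 1 η f w := rfl
    linear_combination ((starRingEnd ℂ) (F w)) * this
  have i7 : Integrable (fun w => F w * (starRingEnd ℂ) (F w)) (qB (Gam p)) := by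
    rw [hsplit2]; exact i1.sub (i6.const_mul _)
  rw [lintegral_enorm_sq i7, hsplit2, integral_sub i1 (i6.const_mul _), integral_const_mul, e5,
    mul_zero, sub_zero, e1]

end level

/-! ### elements normalising `Γ(3)` -/

theorem Gamma3_eq_ker : KU.Gamma3 O = (SpecialLinearGroup.map (n := Fin 2) (rs 3)).ker := by
  ext g
  rw [KU.mem_Gamma3, MonoidHom.mem_ker]
  constructor
  · rintro ⟨h1, h2, h3, h4⟩
    apply KU.ext2
    · show rs 3 (g 0 0) = 1
      rw [← map_one (rs 3), rs_eq]; exact h1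
    · show rs 3 (g 0 1) = 0
      rw [rs_eq_zero]; exact h2
    · show rs 3 (g 1 0) = 0
      rw [rs_eq_zero]; exact h3
    · show rs 3 (g 1 1) = 1
      rw [← map_one (rs 3), rs_eq]; exact h4
  · intro h
    have e : ∀ i j, rs 3 (g i j) = (1 : SpecialLinearGroup (Fin 2) (Rs 3)) i j := by
      intro i j; rw [← h]; rfl
    refine ⟨?_, ?_, ?_, ?_⟩
    · rw [← rs_eq, map_one]; simpa using e 0 0
    · rw [← rs_eq_zero]; simpa using e 0 1
    · rw [← rs_eq_zero]; simpa using e 1 0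
    · rw [← rs_eq, map_one]; simpa using e 1 1

theorem conj_mem_Gamma3 {g : SpecialLinearGroup (Fin 2) O} (hg : g ∈ KU.Gamma3 O)
    (σ : SpecialLinearGroup (Fin 2) O) : σ * g * σ⁻¹ ∈ KU.Gamma3 O := by
  rw [Gamma3_eq_ker] at hg ⊢
  exact (MonoidHom.normal_ker _).conj_mem g hg σ

section sigma

variable {η : O → O → ℂ} (hη : RowChar η) {f : ℝ → ℂ} (hf : Measurable f)
  {A : ℝ} (hfd : Decay f A) {σ : SpecialLinearGroup (Fin 2) O}
  (hσ : ∀ g ∈ KU.Gamma3 O, chiOf η (σ * g * σ⁻¹) = chiOf η g)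

include hη hσ in
theorem E_smul_aut : Aut (Gam 1) (chiOf η) (fun w => E 1 η f (σ • w)) := by
  intro g hg w
  have h1 : σ • g • w = (σ * g * σ⁻¹) • σ • w := by
    rw [smul_smul, smul_smul]; congr 1; group
  simp only []
  rw [h1, E_aut hη 1 f _ (Gamma3_le_Gam_one (conj_mem_Gamma3 hg.1 σ)), hσ g hg.1]

include hη hf hfd hσ in
/-- **(GS-id)** -/
theorem norm_E_smul_sub :
    ∫⁻ w, ‖E 1 η f (σ • w) - E 1 η f w‖ₑ ^ 2 ∂(qB (Gam 1))
      = ENNReal.ofReal (2 * (∫ w in P3, f (1 / w.v) *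
        (starRingEnd ℂ) (E 1 η f w - E 1 η f (σ • w)) ∂muH).re) := by
  have hEm := measurable_E 1 η hf
  have hSm : Measurable fun w : H3 => E 1 η f (σ • w) := hEm.comp (measurable_const_smul σ)
  obtain ⟨i1, e1⟩ := inner_E hη hf hf hfd hfd 1
  have j2 := integrable_decay hf hfd hSm (fun w => norm_E_le hη hfd 1 (σ • w))
  obtain ⟨i2, e2⟩ := unfold_E hη hf (q := 1) hSm (E_smul_aut hη hσ) j2
  have j1 := integrable_decay hf hfd hEm (norm_E_le hη hfd 1)
  have hinv : Inv (Gam 1) fun w => ‖E 1 η f w‖ₑ ^ 2 := fun g hg w => by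
    have := (E_aut hη 1 f).norm_inv (hη.isChar 1) g hg w
    simp only [] at this ⊢
    rw [this]
  have hnorm : ∀ g, g ∈ Gam 1 ↔ σ * g * σ⁻¹ ∈ Gam 1 := by
    intro g
    rw [Gam_one]
    refine ⟨fun h => conj_mem_Gamma3 h σ, fun h => ?_⟩
    have := conj_mem_Gamma3 h σ⁻¹
    convert this using 1; group
  have hsm : ∫⁻ w, ‖E 1 η f (σ • w)‖ₑ ^ 2 ∂(qB (Gam 1)) = ∫⁻ w, ‖E 1 η f w‖ₑ ^ 2 ∂(qB (Gam 1)) :=
    lintegral_qm_smul muH isBase_baseK (hEm.enorm.pow_const 2) hinv hnorm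
  have e3 : ∫ w, E 1 η f (σ • w) * (starRingEnd ℂ) (E 1 η f (σ • w)) ∂(qB (Gam 1))
      = ∫ w, E 1 η f w * (starRingEnd ℂ) (E 1 η f w) ∂(qB (Gam 1)) := by
    rw [integral_mul_conj hSm, integral_mul_conj hEm, hsm]
  have hfin1 : ∫⁻ w, ‖E 1 η f w‖ₑ ^ 2 ∂(qB (Gam 1)) ≠ ∞ := by
    rw [lintegral_enorm_sq i1]; exact ENNReal.ofReal_ne_top
  have i3 : Integrable (fun w => E 1 η f (σ • w) * (starRingEnd ℂ) (E 1 η f (σ • w)))
      (qB (Gam 1)) := by
    refine ⟨(hSm.mul (Complex.continuous_conj.measurable.comp hSm)).aestronglyMeasurable, ?_⟩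
    rw [HasFiniteIntegral]
    have : ∀ w, ‖E 1 η f (σ • w) * (starRingEnd ℂ) (E 1 η f (σ • w))‖ₑ
        = ‖E 1 η f (σ • w)‖ₑ ^ 2 := by
      intro w
      rw [enorm_mul, RCLike.enorm_conj, sq]
    simp only [this, hsm]
    exact lt_top_iff_ne_top.2 hfin1
  have i4 := integrable_conj_swap i2
  have e4 := integral_conj_swap (m := qB (Gam 1)) (E 1 η f) (fun w => E 1 η f (σ • w))
  set G : H3 → ℂ := fun w => E 1 η f (σ • w) - E 1 η f w with hG
  have hsplit : (fun w => G w * (starRingEnd ℂ) (G w)) = fun w =>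
      ((E 1 η f (σ • w) * (starRingEnd ℂ) (E 1 η f (σ • w))
        - E 1 η f (σ • w) * (starRingEnd ℂ) (E 1 η f w))
        - E 1 η f w * (starRingEnd ℂ) (E 1 η f (σ • w)))
        + E 1 η f w * (starRingEnd ℂ) (E 1 η f w) := by
    ext w
    simp only [hG, map_sub]
    ring
  have k1 : Integrable (fun w => E 1 η f (σ • w) * (starRingEnd ℂ) (E 1 η f (σ • w))
        - E 1 η f (σ • w) * (starRingEnd ℂ) (E 1 η f w)) (qB (Gam 1)) := i3.sub i4
  have k2 : Integrable (fun w => (E 1 η f (σ • w) * (starRingEnd ℂ) (E 1 η f (σ • w))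
        - E 1 η f (σ • w) * (starRingEnd ℂ) (E 1 η f w))
        - E 1 η f w * (starRingEnd ℂ) (E 1 η f (σ • w))) (qB (Gam 1)) := k1.sub i2
  have iG : Integrable (fun w => G w * (starRingEnd ℂ) (G w)) (qB (Gam 1)) := by
    rw [hsplit]; exact k2.add i1
  have hrhs : ∫ w in P3, f (1 / w.v) * (starRingEnd ℂ) (E 1 η f w - E 1 η f (σ • w)) ∂muH
      = (∫ w in P3, f (1 / w.v) * (starRingEnd ℂ) (E 1 η f w) ∂muH)
        - ∫ w in P3, f (1 / w.v) * (starRingEnd ℂ) (E 1 η f (σ • w)) ∂muH := by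
    rw [← integral_sub j1 j2]
    refine integral_congr_ae (Filter.Eventually.of_forall fun w => ?_)
    simp only [map_sub]
    ring
  rw [lintegral_enorm_sq iG, hsplit, integral_add k2 i1,
    integral_sub k1 i2, integral_sub i3 i4, e3, e4, e2, e1, hrhs]
  congr 1
  simp only [Complex.add_re, Complex.sub_re, Complex.conj_re]
  ring

end sigma

end Vale.Agent.P006.H9
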