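import Vale.Agent.P006.H9.Action
import Mathlib.MeasureTheory.Function.JacobianOneDim
import Mathlib.Analysis.Calculus.Deriv.Inv
import Mathlib.LinearAlgebra.Complex.FiniteDimensional
import Mathlib.MeasureTheory.Measure.Lebesgue.Complex
import Mathlib.MeasureTheory.Measure.Haar.InnerProductSpace
import Mathlib.MeasureTheory.Integral.Prod
import Mathlib.Analysis.Complex.Isometry
import Mathlib.MeasureTheory.Measure.WithDensity
import Mathlib.MeasureTheory.Group.Measure

/-!
P006, block H: the invariant measure `dz dv / v³` on hyperbolic three-space.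
-/

namespace Vale.Agent.P006.H9

open Matrix Complex MeasureTheory ENNReal Set

/-- the point `(z, v)` (junk value for `v ≤ 0`) -/
noncomputable def H3.of (z : ℂ) (v : ℝ) : H3 :=
  if h : 0 < v then H3.mk z v h else H3.mk z 1 one_pos

theorem H3.of_eq {z : ℂ} {v : ℝ} (h : 0 < v) : H3.of z v = H3.mk z v h := by
  rw [H3.of, dif_pos h]

@[simp] theorem H3.of_z (z : ℂ) (v : ℝ) : (H3.of z v).z = z := by
  unfold H3.of; split <;> rfl

theorem H3.of_v {z : ℂ} {v : ℝ} (h : 0 < v) : (H3.of z v).v = v := by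
  rw [H3.of_eq h]; rfl

@[simp] theorem H3.of_self (w : H3) : H3.of w.z w.v = w := by
  rw [H3.of_eq w.v_pos]; rfl

@[fun_prop]
theorem H3.measurable_of : Measurable (fun p : ℂ × ℝ => H3.of p.1 p.2) := by
  have h : Measurable fun p : ℂ × ℝ => ((p.1, if 0 < p.2 then p.2 else 1) : ℂ × ℝ) :=
    measurable_fst.prodMk (Measurable.ite (measurableSet_lt measurable_const measurable_snd)
      measurable_snd measurable_const)
  have h2 : (fun p : ℂ × ℝ => H3.of p.1 p.2) = fun p : ℂ × ℝ =>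
      (⟨(p.1, if 0 < p.2 then p.2 else 1), by split <;> simp_all⟩ : H3) := by
    funext p
    apply Subtype.ext
    unfold H3.of
    split_ifs with hp <;> simp_all [H3.mk]
  rw [h2]
  exact h.subtype_mk

/-- the measure `dv / v³` on `(0, ∞)` -/
noncomputable def nuV : Measure ℝ :=
  (volume.restrict (Ioi (0 : ℝ))).withDensity fun v => ENNReal.ofReal ((v ^ 3)⁻¹)

instance : SigmaFinite nuV := by unfold nuV; infer_instance

/-- the invariant measure `dz dv / v³` -/
noncomputable def muH : Measure H3 :=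
  ((volume : Measure ℂ).prod nuV).map (fun p : ℂ × ℝ => H3.of p.1 p.2)

theorem lintegral_nuV {f : ℝ → ℝ≥0∞} (hf : Measurable f) :
    ∫⁻ v, f v ∂nuV = ∫⁻ v in Ioi (0 : ℝ), ENNReal.ofReal ((v ^ 3)⁻¹) * f v := by
  rw [nuV, lintegral_withDensity_eq_lintegral_mul _ (by fun_prop) hf]
  rfl

theorem lintegral_muH_prod {F : H3 → ℝ≥0∞} (hF : Measurable F) :
    ∫⁻ w, F w ∂muH = ∫⁻ p, F (H3.of p.1 p.2) ∂((volume : Measure ℂ).prod nuV) := by
  rw [muH, lintegral_map hF H3.measurable_of]

/-- integration over `H3` by coordinates -/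
theorem lintegral_muH {F : H3 → ℝ≥0∞} (hF : Measurable F) :
    ∫⁻ w, F w ∂muH =
      ∫⁻ v in Ioi (0 : ℝ), ENNReal.ofReal ((v ^ 3)⁻¹) * ∫⁻ z : ℂ, F (H3.of z v) := by
  rw [lintegral_muH_prod hF, lintegral_prod_symm' (fun p : ℂ × ℝ => F (H3.of p.1 p.2))
    (hF.comp H3.measurable_of), lintegral_nuV]
  exact Measurable.lintegral_prod_left' (hF.comp H3.measurable_of)

/-- scaling in the `z`-variable -/
theorem lintegral_scale (f : ℂ → ℝ≥0∞) {r : ℝ} (hr : 0 < r) :
    ∫⁻ z, f z = ENNReal.ofReal (r ^ 2) * ∫⁻ s : ℂ, f (r * s) := by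
  have hfun : (fun s : ℂ => (r : ℂ) * s) = fun s : ℂ => r • s := by
    ext s; simp
  have h1 : ∫⁻ s : ℂ, f (r * s) = ∫⁻ z, f z ∂(Measure.map (fun s : ℂ => r • s) volume) := by
    have he : MeasurableEmbedding (fun s : ℂ => r • s) :=
      (Homeomorph.smulOfNeZero r hr.ne').measurableEmbedding
    rw [he.lintegral_map]
    simp
  rw [h1, Measure.map_addHaar_smul volume hr.ne', lintegral_smul_measure,
    Complex.finrank_real_complex, smul_eq_mul, ← mul_assoc, ← ENNReal.ofReal_mul (by positivity)]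
  have : r ^ 2 * |(r ^ 2)⁻¹| = 1 := by
    rw [abs_of_pos (by positivity)]; field_simp
  rw [this]; simp

/-- integration over `H3` in the coordinates `(z / v, v)` -/
theorem lintegral_muH' {F : H3 → ℝ≥0∞} (hF : Measurable F) :
    ∫⁻ w, F w ∂muH =
      ∫⁻ s : ℂ, ∫⁻ v in Ioi (0 : ℝ), ENNReal.ofReal v⁻¹ * F (H3.of (v * s) v) := by
  rw [lintegral_muH hF]
  have hm : Measurable fun p : ℂ × ℝ => ENNReal.ofReal p.2⁻¹ * F (H3.of (p.2 * p.1) p.2) := by
    refine Measurable.mul (by fun_prop) (hF.comp ?_)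
    have : Measurable fun p : ℂ × ℝ => (((p.2 : ℂ) * p.1, p.2) : ℂ × ℝ) := by fun_prop
    exact H3.measurable_of.comp this
  rw [lintegral_lintegral_swap hm.aemeasurable]
  refine setLIntegral_congr_fun measurableSet_Ioi fun v hv => ?_
  have hv' : 0 < v := hv
  rw [lintegral_scale (fun z => F (H3.of z v)) hv', lintegral_const_mul]
  · rw [← mul_assoc, ← ENNReal.ofReal_mul (by positivity)]
    congr 2
    field_simp
  · have : Measurable fun s : ℂ => (((v : ℂ) * s, v) : ℂ × ℝ) := by fun_prop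
    exact hF.comp (H3.measurable_of.comp this)

/-- invariance of `dv / v` under `v ↦ c / v` -/
theorem lintegral_inv {c : ℝ} (hc : 0 < c) (h : ℝ → ℝ≥0∞) :
    ∫⁻ v in Ioi (0 : ℝ), ENNReal.ofReal v⁻¹ * h (c / v)
      = ∫⁻ t in Ioi (0 : ℝ), ENNReal.ofReal t⁻¹ * h t := by
  have himg : (fun v : ℝ => c / v) '' Ioi 0 = Ioi 0 := by
    ext t
    constructor
    · rintro ⟨v, hv, rfl⟩
      exact div_pos hc hv
    · intro ht
      have ht' : 0 < t := ht
      exact ⟨c / t, div_pos hc ht', by field_simp⟩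
  have hinj : InjOn (fun v : ℝ => c / v) (Ioi 0) := by
    intro v hv w hw hvw
    have hv' : 0 < v := hv
    have hw' : 0 < w := hw
    have h1 : c / v = c / w := hvw
    rw [div_eq_div_iff hv'.ne' hw'.ne'] at h1
    exact (mul_left_cancel₀ hc.ne' h1).symm
  have hder : ∀ v ∈ Ioi (0 : ℝ), HasDerivWithinAt (fun v : ℝ => c / v) (-c / v ^ 2) (Ioi 0) v := by
    intro v hv
    have hv' : v ≠ 0 := ne_of_gt hv
    have := (hasDerivAt_inv hv').const_mul c
    have h2 : HasDerivAt (fun v : ℝ => c / v) (-c / v ^ 2) v := by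
      have e : -c / v ^ 2 = c * -(v ^ 2)⁻¹ := by
        rw [neg_div, div_eq_mul_inv]; ring
      rw [e]
      exact this
    exact h2.hasDerivWithinAt
  have := lintegral_image_eq_lintegral_abs_deriv_mul measurableSet_Ioi hder hinj
    (fun t => ENNReal.ofReal t⁻¹ * h t)
  rw [himg] at this
  rw [this]
  refine setLIntegral_congr_fun measurableSet_Ioi fun v hv => ?_
  have hv' : 0 < v := hv
  rw [← mul_assoc, ← ENNReal.ofReal_mul (abs_nonneg _)]
  congr 2
  rw [abs_div, abs_neg, abs_of_pos hc, abs_of_pos (by positivity : 0 < v ^ 2)]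
  field_simp

/-- the elements of `SL₂(ℂ)` that preserve integrals -/
def Pres (g : SpecialLinearGroup (Fin 2) ℂ) : Prop :=
  ∀ F : H3 → ℝ≥0∞, Measurable F → ∫⁻ w, F (g • w) ∂muH = ∫⁻ w, F w ∂muH

theorem measurable_comp_smul {F : H3 → ℝ≥0∞} (hF : Measurable F)
    (g : SpecialLinearGroup (Fin 2) ℂ) : Measurable fun w => F (g • w) :=
  hF.comp (measurable_const_smul g)

theorem Pres.mul {g h : SpecialLinearGroup (Fin 2) ℂ} (hg : Pres g) (hh : Pres h) :
    Pres (g * h) := by
  intro F hF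
  have := hh (fun w => F (g • w)) (hF.comp (measurable_const_smul g))
  simp only [mul_smul]
  rw [this, hg F hF]

theorem trC_smul (x : ℂ) (w : H3) : KU.tr x • w = H3.mk (w.z + x) w.v w.v_pos := by
  apply H3.ext
  · rw [z_smulC]; simp [KU.tr, den]
  · rw [v_smulC]; simp [KU.tr, Q, den]

theorem pres_tr (x : ℂ) : Pres (KU.tr x) := by
  intro F hF
  rw [lintegral_muH (measurable_comp_smul hF _), lintegral_muH hF]
  refine setLIntegral_congr_fun measurableSet_Ioi fun v hv => ?_
  have hv' : 0 < v := hv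
  congr 1
  rw [← lintegral_add_right_eq_self (fun z => F (H3.of z v)) x]
  refine lintegral_congr fun z => ?_
  rw [trC_smul]
  congr 1
  apply H3.ext
  · simp
  · simp [H3.of_v hv']

/-- the diagonal matrix `(a 0; 0 a⁻¹)` -/
noncomputable def dg (a : ℂ) (ha : a ≠ 0) : SpecialLinearGroup (Fin 2) ℂ :=
  KU.mk2 a 0 0 a⁻¹ (by rw [mul_inv_cancel₀ ha]; ring)

theorem dg_smul_z (a : ℂ) (ha : a ≠ 0) (w : H3) : (dg a ha • w).z = a ^ 2 * w.z := by
  rw [z_smulC]
  simp [dg, den]
  have : ((normSq a : ℝ) : ℂ) = a * (starRingEnd ℂ) a := (mul_conj a).symm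
  rw [this]
  have h2 : (starRingEnd ℂ) a ≠ 0 := by simpa using ha
  field_simp

theorem dg_smul_v (a : ℂ) (ha : a ≠ 0) (w : H3) : (dg a ha • w).v = ‖a‖ ^ 2 * w.v := by
  rw [v_smulC]
  simp [dg, Q, den, normSq_eq_norm_sq]
  ring

theorem pres_dg_real {r : ℝ} (hr : 0 < r) (h : (r : ℂ) ≠ 0) : Pres (dg r h) := by
  intro F hF
  rw [lintegral_muH' (measurable_comp_smul hF _), lintegral_muH' hF]
  refine lintegral_congr fun s => ?_
  -- dilation invariance of `dv / v`, through two inversions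
  have hr2 : 0 < r ^ 2 := by positivity
  have e1 := lintegral_inv one_pos fun t => F (H3.of (t * s) t)
  have e2 := lintegral_inv hr2 fun t => F (H3.of (t * s) t)
  have e3 := lintegral_inv one_pos fun t => F (H3.of (((r ^ 2 * t : ℝ) : ℂ) * s) (r ^ 2 * t))
  rw [← e2]
  have e4 : ∀ v ∈ Ioi (0 : ℝ), ENNReal.ofReal v⁻¹ * F (dg r h • H3.of (v * s) v)
      = ENNReal.ofReal v⁻¹ * F (H3.of (((r ^ 2 * v : ℝ) : ℂ) * s) (r ^ 2 * v)) := by
    intro v hv
    have hv' : 0 < v := hv
    congr 2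
    have hrv : 0 < r ^ 2 * v := by positivity
    apply H3.ext
    · rw [dg_smul_z]; simp [mul_assoc]
    · rw [dg_smul_v, H3.of_v hv', H3.of_v hrv]; simp
  rw [setLIntegral_congr_fun measurableSet_Ioi e4, ← e3]
  refine setLIntegral_congr_fun measurableSet_Ioi fun v hv => ?_
  simp only [mul_one_div]

theorem pres_dg_unit {u : ℂ} (hu : ‖u‖ = 1) (h : u ≠ 0) : Pres (dg u h) := by
  intro F hF
  rw [lintegral_muH (measurable_comp_smul hF _), lintegral_muH hF]
  refine setLIntegral_congr_fun measurableSet_Ioi fun v hv => ?_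
  have hv' : 0 < v := hv
  congr 1
  have hu2 : ‖u ^ 2‖ = 1 := by rw [norm_pow, hu]; simp
  let c : Circle := ⟨u ^ 2, by simp [Submonoid.unitSphere, hu]⟩
  have h1 := (rotation c).measurePreserving.lintegral_comp_emb
    (rotation c).toHomeomorph.measurableEmbedding (fun z => F (H3.of z v))
  rw [← h1]
  refine lintegral_congr fun z => ?_
  congr 1
  apply H3.ext
  · rw [dg_smul_z, H3.of_z, H3.of_z, rotation_apply]
  · rw [dg_smul_v]; simp [H3.of_v hv', hu]

theorem pres_dg (a : ℂ) (ha : a ≠ 0) : Pres (dg a ha) := by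
  have h1 : 0 < ‖a‖ := norm_pos_iff.2 ha
  have h2 : ((‖a‖ : ℝ) : ℂ) ≠ 0 := by exact_mod_cast h1.ne'
  have h3 : ‖a / ‖a‖‖ = 1 := by simp [h1.ne']
  have h4 : a / ‖a‖ ≠ 0 := div_ne_zero ha h2
  have : dg a ha = dg ‖a‖ h2 * dg (a / ‖a‖) h4 := by
    apply KU.ext2
    · simp [KU.mul_00, dg]; field_simp
    · simp [KU.mul_01, dg]
    · simp [KU.mul_10, dg]
    · simp [KU.mul_11, dg]; field_simp
  rw [this]
  exact (pres_dg_real h1 h2).mul (pres_dg_unit h3 h4)

theorem pres_S : Pres (KU.Smat ℂ) := by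
  intro F hF
  have hz : ∀ w : H3, (KU.Smat ℂ • w).z
      = -(starRingEnd ℂ) w.z / (normSq w.z + w.v ^ 2 : ℝ) := by
    intro w; rw [z_smulC]; simp [KU.Smat, den]
  have hv : ∀ w : H3, (KU.Smat ℂ • w).v = w.v / (normSq w.z + w.v ^ 2) := by
    intro w; rw [v_smulC]; simp [KU.Smat, Q, den]
  rw [lintegral_muH' (measurable_comp_smul hF _), lintegral_muH' hF]
  have e1 : ∀ s : ℂ, ∫⁻ v in Ioi (0 : ℝ), ENNReal.ofReal v⁻¹ * F (KU.Smat ℂ • H3.of (v * s) v)
      = ∫⁻ t in Ioi (0 : ℝ), ENNReal.ofReal t⁻¹ * F (H3.of (t * (-(starRingEnd ℂ) s)) t) := by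
    intro s
    have hc : 0 < 1 / (normSq s + 1) := by
      have := normSq_nonneg s
      positivity
    rw [← lintegral_inv hc (fun t => F (H3.of (t * (-(starRingEnd ℂ) s)) t))]
    refine setLIntegral_congr_fun measurableSet_Ioi fun v hv' => ?_
    have hv0 : 0 < v := hv'
    congr 2
    have h5 : 0 < 1 / (normSq s + 1) / v := by positivity
    have h6 : 0 < normSq s + 1 := by
      have := normSq_nonneg s
      positivity
    apply H3.ext
    · rw [hz, H3.of_z, H3.of_z, H3.of_v hv0, normSq_mul, normSq_ofReal]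
      have h7 : ((normSq s : ℝ) : ℂ) + 1 ≠ 0 := by exact_mod_cast h6.ne'
      have h8 : (v : ℂ) ≠ 0 := by exact_mod_cast hv0.ne'
      have h9 : ((v * v * normSq s + v ^ 2 : ℝ) : ℂ) ≠ 0 := by
        have : 0 < v * v * normSq s + v ^ 2 := by
          have := normSq_nonneg s
          positivity
        exact_mod_cast this.ne'
      rw [map_mul, conj_ofReal, div_eq_iff h9]
      push_cast
      field_simp
    · rw [hv, H3.of_z, H3.of_v hv0, H3.of_v h5, normSq_mul, normSq_ofReal]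
      field_simp
  simp only [e1]
  -- reflection `s ↦ - conj s`
  have hmp : MeasurePreserving (fun s : ℂ => -(starRingEnd ℂ) s) volume volume :=
    (Complex.conjLIE.trans (LinearIsometryEquiv.neg ℝ)).measurePreserving
  have hm : Measurable fun s : ℂ => ∫⁻ t in Ioi (0 : ℝ), ENNReal.ofReal t⁻¹ * F (H3.of (t * s) t) := by
    refine Measurable.lintegral_prod_right' (f := fun p : ℂ × ℝ =>
      ENNReal.ofReal p.2⁻¹ * F (H3.of (p.2 * p.1) p.2)) ?_
    refine Measurable.mul (by fun_prop) (hF.comp ?_)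
    have : Measurable fun p : ℂ × ℝ => (((p.2 : ℂ) * p.1, p.2) : ℂ × ℝ) := by fun_prop
    exact H3.measurable_of.comp this
  exact hmp.lintegral_comp hm

theorem pres (g : SpecialLinearGroup (Fin 2) ℂ) : Pres g := by
  have hdet := KU.det_eq g
  by_cases hc : g 1 0 = 0
  · have had : g 0 0 * g 1 1 = 1 := by rw [hc] at hdet; simpa using hdet
    have ha : g 0 0 ≠ 0 := left_ne_zero_of_mul_eq_one had
    have hd : g 1 1 = (g 0 0)⁻¹ := eq_inv_of_mul_eq_one_right had
    have : g = KU.tr (g 0 1 * g 0 0) * dg (g 0 0) ha := by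
      apply KU.ext2
      · simp [KU.mul_00, dg, KU.tr]
      · simp [KU.mul_01, dg, KU.tr]; field_simp
      · simp [KU.mul_10, dg, KU.tr, hc]
      · simp [KU.mul_11, dg, KU.tr, hd]
    rw [this]
    exact (pres_tr _).mul (pres_dg _ _)
  · have hc' : (g 1 0)⁻¹ ≠ 0 := inv_ne_zero hc
    have : g = KU.tr (g 0 0 / g 1 0) * dg (g 1 0)⁻¹ hc' * KU.Smat ℂ * KU.tr (g 1 1 / g 1 0) := by
      apply KU.ext2
      · simp [KU.mul_00, KU.mul_01, dg, KU.tr, KU.Smat]
        field_simp
      · simp [KU.mul_00, KU.mul_01, dg, KU.tr, KU.Smat]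
        field_simp
        linear_combination -hdet
      · simp [KU.mul_10, KU.mul_11, dg, KU.tr, KU.Smat]
      · simp [KU.mul_10, KU.mul_11, dg, KU.tr, KU.Smat]
        field_simp
    rw [this]
    exact (((pres_tr _).mul (pres_dg _ _)).mul pres_S).mul (pres_tr _)

instance : SMulInvariantMeasure (SpecialLinearGroup (Fin 2) ℂ) H3 muH where
  measure_preimage_smul g s hs := by
    have h := pres g (s.indicator 1) (measurable_one.indicator hs)
    rw [lintegral_indicator_one hs] at h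
    rw [← h, ← lintegral_indicator_one ((measurable_const_smul g) hs)]
    rfl

instance : SMulInvariantMeasure (SpecialLinearGroup (Fin 2) O) H3 muH where
  measure_preimage_smul g _ hs :=
    SMulInvariantMeasure.measure_preimage_smul (μ := muH) (toSLC g) hs

end Vale.Agent.P006.H9
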