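import Mathlib.MeasureTheory.Group.FundamentalDomain
import Mathlib.MeasureTheory.Integral.DominatedConvergence
import Mathlib.MeasureTheory.Measure.WithDensity
import Mathlib.MeasureTheory.Constructions.Polish.Basic
import Mathlib.GroupTheory.Index

/-!
P006, block H (abstract part): integration over `B \ X` without fundamental domains, for a
countable group `G` acting on a measure space `X` and arbitrary subgroups `B`.
Unfolding, change of level, covering inequality.
-/

namespace Vale.Agent.P006.H9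

open MeasureTheory ENNReal Set

variable {G X ι : Type*} [Group G] [MulAction G X]

/-- invariance of a function under a subgroup -/
def Inv {β : Type*} (B : Subgroup G) (F : X → β) : Prop := ∀ g ∈ B, ∀ x, F (g • x) = F x

theorem Inv.mono {β : Type*} {B B' : Subgroup G} {F : X → β} (h : Inv B F) (hle : B' ≤ B) :
    Inv B' F := fun g hg => h g (hle hg)

/-- the orbit sum `∑_{g ∈ B} k (g w)` -/
noncomputable def osum (B : Subgroup G) (k : X → ℝ≥0∞) (w : X) : ℝ≥0∞ :=
  ∑' g : B, k ((g : G) • w)

theorem osum_inv (B : Subgroup G) (k : X → ℝ≥0∞) : Inv B (osum B k) := by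
  intro g hg x
  unfold osum
  rw [← (Equiv.mulRight (⟨g, hg⟩ : B)).tsum_eq (fun b : B => k ((b : G) • x))]
  refine tsum_congr fun b => ?_
  simp [mul_smul]

theorem le_osum (B : Subgroup G) (k : X → ℝ≥0∞) (w : X) : k w ≤ osum B k w := by
  have := ENNReal.le_tsum (f := fun g : B => k ((g : G) • w)) 1
  simpa [osum] using this

theorem osum_le (B : Subgroup G) (k : X → ℝ≥0∞) (w : X) : osum B k w ≤ ∑' g : G, k (g • w) :=
  ENNReal.tsum_comp_le_tsum_of_injective (f := fun b : B => (b : G)) Subtype.val_injective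
    (fun g => k (g • w))

theorem osum_mono {B B' : Subgroup G} (h : B' ≤ B) (k : X → ℝ≥0∞) (w : X) :
    osum B' k w ≤ osum B k w :=
  ENNReal.tsum_comp_le_tsum_of_injective (f := fun b : B' => (⟨b, h b.2⟩ : B))
    (fun a b hab => by simpa using hab) (fun g : B => k ((g : G) • w))

/-- every element of a group is uniquely `(representative) * s` with `s` in the subgroup -/
noncomputable def cosetEquiv {H : Type*} [Group H] (S : Subgroup H) : (H ⧸ S) × S ≃ H where
  toFun p := Quotient.out p.1 * p.2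
  invFun b := ((b : H ⧸ S), ⟨(Quotient.out (b : H ⧸ S))⁻¹ * b,
    QuotientGroup.eq.1 (QuotientGroup.out_eq' (b : H ⧸ S))⟩)
  left_inv p := by
    obtain ⟨q, s⟩ := p
    have h1 : ((Quotient.out q * (s : H) : H) : H ⧸ S) = q := by
      rw [QuotientGroup.mk_mul_of_mem _ s.2]; exact QuotientGroup.out_eq' q
    ext1
    · exact h1
    · apply Subtype.ext
      show (Quotient.out ((Quotient.out q * (s : H) : H) : H ⧸ S))⁻¹ * (Quotient.out q * s) = s
      rw [h1]; group
  right_inv b := by simp

theorem cosetEquiv_apply {H : Type*} [Group H] (S : Subgroup H) (q : H ⧸ S) (s : S) :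
    cosetEquiv S (q, s) = Quotient.out q * (s : H) := rfl

variable [MeasurableSpace X]

theorem measurable_osum [Countable G] [MeasurableConstSMul G X] (B : Subgroup G)
    {k : X → ℝ≥0∞} (hk : Measurable k) : Measurable (osum B k) :=
  Measurable.tsum fun g => hk.comp (measurable_const_smul (g : G))

/-- **swap lemma** -/
theorem swap [Countable G] [MeasurableConstSMul G X] (μ : Measure X)
    [SMulInvariantMeasure G X μ] {B : Subgroup G} {F k₁ k₂ : X → ℝ≥0∞} (hF : Measurable F)
    (hFi : Inv B F) (h1 : Measurable k₁) (h2 : Measurable k₂) :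
    ∫⁻ w, F w * k₁ w * osum B k₂ w ∂μ = ∫⁻ w, F w * k₂ w * osum B k₁ w ∂μ := by
  have hm : ∀ {a b : X → ℝ≥0∞}, Measurable a → Measurable b → ∀ g : G,
      Measurable fun w => F w * a w * b (g • w) := fun ha hb g =>
    (hF.mul ha).mul (hb.comp (measurable_const_smul g))
  simp only [osum, ← ENNReal.tsum_mul_left]
  rw [lintegral_tsum (fun g : B => (hm h1 h2 g).aemeasurable),
    lintegral_tsum (fun g : B => (hm h2 h1 g).aemeasurable), ← (Equiv.inv B).tsum_eq]
  refine tsum_congr fun g => ?_
  rw [← (measurePreserving_smul (g : G) μ).lintegral_comp (hm h1 h2 _)]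
  refine lintegral_congr fun w => ?_
  have e : ((Equiv.inv B) g : G) • (g : G) • w = w := by simp
  rw [e, hFi g g.2]; ring

/-- a measurable `k ≥ 0` with `∑_{g ∈ B} k (g w) = 1` for all `w` -/
structure IsKernel (B : Subgroup G) (k : X → ℝ≥0∞) : Prop where
  meas : Measurable k
  sum_eq : ∀ w, osum B k w = 1

theorem IsKernel.le_one {B : Subgroup G} {k : X → ℝ≥0∞} (h : IsKernel B k) (w : X) : k w ≤ 1 :=
  (le_osum B k w).trans (h.sum_eq w).le

/-- integration against a kernel does not depend on the kernel -/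
theorem indep [Countable G] [MeasurableConstSMul G X] (μ : Measure X)
    [SMulInvariantMeasure G X μ] {B : Subgroup G} {F k₁ k₂ : X → ℝ≥0∞} (hF : Measurable F)
    (hFi : Inv B F) (h1 : IsKernel B k₁) (h2 : IsKernel B k₂) :
    ∫⁻ w, F w * k₁ w ∂μ = ∫⁻ w, F w * k₂ w ∂μ := by
  have := swap μ hF hFi h1.meas h2.meas
  simpa [h1.sum_eq, h2.sum_eq] using this

/-- covering inequality: if at most `C` of the points `g w`, `g ∈ B`, lie in `A` then
`∫_A F ≤ C ∫_{B\X} F` -/
theorem covering_le [Countable G] [MeasurableConstSMul G X] (μ : Measure X)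
    [SMulInvariantMeasure G X μ] {B : Subgroup G} {F k : X → ℝ≥0∞} (hF : Measurable F)
    (hFi : Inv B F) (hk : IsKernel B k) {A : Set X} (hA : MeasurableSet A) {C : ℝ≥0∞}
    (hC : ∀ w, osum B (A.indicator 1) w ≤ C) :
    ∫⁻ w in A, F w ∂μ ≤ C * ∫⁻ w, F w * k w ∂μ := by
  have h := swap μ hF hFi (k₁ := A.indicator 1) (k₂ := k) (measurable_one.indicator hA) hk.meas
  calc ∫⁻ w in A, F w ∂μ = ∫⁻ w, F w * A.indicator 1 w * osum B k w ∂μ := by
        rw [← lintegral_indicator hA]
        refine lintegral_congr fun w => ?_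
        rw [hk.sum_eq, mul_one]
        by_cases hw : w ∈ A
        · rw [indicator_of_mem hw, indicator_of_mem hw]; simp
        · rw [indicator_of_notMem hw, indicator_of_notMem hw]; simp
    _ = ∫⁻ w, F w * k w * osum B (A.indicator 1) w ∂μ := h
    _ ≤ ∫⁻ w, C * (F w * k w) ∂μ := by
        refine lintegral_mono fun w => ?_
        rw [mul_comm C]
        exact mul_le_mul_right (hC w) _
    _ = C * ∫⁻ w, F w * k w ∂μ := lintegral_const_mul _ (hF.mul hk.meas)

/-- the kernel made from a positive function with finite orbit sums -/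
noncomputable def kern (B : Subgroup G) (K : X → ℝ≥0∞) (w : X) : ℝ≥0∞ := K w / osum B K w

/-- the standing assumption on the function from which kernels are made -/
structure IsBase (G : Type*) [Group G] [MulAction G X] (K : X → ℝ≥0∞) : Prop where
  meas : Measurable K
  ne_zero : ∀ w, K w ≠ 0
  ne_top : ∀ w, ∑' g : G, K (g • w) ≠ ∞

theorem isKernel_kern [Countable G] [MeasurableConstSMul G X] {K : X → ℝ≥0∞}
    (hK : IsBase G K) (B : Subgroup G) : IsKernel B (kern B K) where
  meas := hK.meas.div (measurable_osum B hK.meas)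
  sum_eq w := by
    have h1 : osum B K w ≠ ∞ := ne_top_of_le_ne_top (hK.ne_top w) (osum_le B K w)
    have h0 : osum B K w ≠ 0 := fun h =>
      hK.ne_zero w (le_antisymm (h ▸ le_osum B K w) bot_le)
    have h2 : osum B (kern B K) w = ∑' g : B, K ((g : G) • w) * (osum B K w)⁻¹ := by
      unfold osum kern
      refine tsum_congr fun g => ?_
      rw [osum_inv B K g g.2 w]; rfl
    rw [h2, ENNReal.tsum_mul_right]
    exact ENNReal.mul_inv_cancel h0 h1

/-- the measure `k_B μ` on `X` that represents integration over `B \ X` -/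
noncomputable def qm (μ : Measure X) (K : X → ℝ≥0∞) (B : Subgroup G) : Measure X :=
  μ.withDensity (kern B K)

section qm

variable [Countable G] [MeasurableConstSMul G X] (μ : Measure X)
    [SMulInvariantMeasure G X μ] {K : X → ℝ≥0∞} (hK : IsBase G K) {B : Subgroup G}

include hK

omit [SMulInvariantMeasure G X μ] in
theorem lintegral_qm' {F : X → ℝ≥0∞} (hF : Measurable F) :
    ∫⁻ w, F w ∂(qm μ K B) = ∫⁻ w, F w * kern B K w ∂μ := by
  rw [qm, lintegral_withDensity_eq_lintegral_mul _ (isKernel_kern hK B).meas hF]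
  refine lintegral_congr fun w => ?_
  simp [mul_comm]

theorem lintegral_qm {F k : X → ℝ≥0∞} (hF : Measurable F)
    (hFi : Inv B F) (hk : IsKernel B k) :
    ∫⁻ w, F w ∂(qm μ K B) = ∫⁻ w, F w * k w ∂μ := by
  rw [lintegral_qm' μ hK hF]
  exact indep μ hF hFi (isKernel_kern hK B) hk

omit hK [SMulInvariantMeasure G X μ] [Countable G] [MeasurableConstSMul G X] in
theorem qm_ac : qm μ K B ≪ μ := withDensity_absolutelyContinuous _ _

omit [SMulInvariantMeasure G X μ] in
theorem ac_qm : μ ≪ qm μ K B := by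
  refine withDensity_absolutelyContinuous' (isKernel_kern hK B).meas.aemeasurable ?_
  refine Filter.Eventually.of_forall fun w => ?_
  unfold kern
  have h1 : osum B K w ≠ ∞ := ne_top_of_le_ne_top (hK.ne_top w) (osum_le B K w)
  exact (ENNReal.div_pos (hK.ne_zero w) h1).ne'

theorem strip_le {F : X → ℝ≥0∞} (hF : Measurable F)
    (hFi : Inv B F) {A : Set X} (hA : MeasurableSet A) {C : ℝ≥0∞}
    (hC : ∀ w, ∑' g : G, A.indicator (1 : X → ℝ≥0∞) (g • w) ≤ C) (σ : G) :
    ∫⁻ w in A, F (σ • w) ∂μ ≤ C * ∫⁻ w, F w ∂(qm μ K B) := by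
  have hA' : MeasurableSet ((fun w => σ⁻¹ • w) ⁻¹' A) := measurable_const_smul σ⁻¹ hA
  have h1 : ∫⁻ w in A, F (σ • w) ∂μ = ∫⁻ w in (fun w => σ⁻¹ • w) ⁻¹' A, F w ∂μ := by
    rw [← lintegral_indicator hA, ← lintegral_indicator hA',
      ← (measurePreserving_smul σ μ).lintegral_comp (hF.indicator hA')]
    refine lintegral_congr fun w => ?_
    by_cases hw : w ∈ A
    · rw [indicator_of_mem hw, indicator_of_mem (by simpa using hw)]
    · rw [indicator_of_notMem hw, indicator_of_notMem (by simpa using hw)]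
  rw [h1, lintegral_qm' μ hK hF]
  refine covering_le μ hF hFi (isKernel_kern hK B) hA' fun w => ?_
  refine le_trans ?_ (hC w)
  have e : ∀ g : G, ((fun w => σ⁻¹ • w) ⁻¹' A).indicator (1 : X → ℝ≥0∞) (g • w)
      = A.indicator (1 : X → ℝ≥0∞) ((σ⁻¹ * g) • w) := by
    intro g
    by_cases hw : σ⁻¹ • g • w ∈ A
    · rw [indicator_of_mem (by exact hw), indicator_of_mem (by rw [mul_smul]; exact hw)]; rfl
    · rw [indicator_of_notMem (by exact hw), indicator_of_notMem (by rw [mul_smul]; exact hw)]
  calc osum B (((fun w => σ⁻¹ • w) ⁻¹' A).indicator 1) w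
      ≤ ∑' g : G, ((fun w => σ⁻¹ • w) ⁻¹' A).indicator (1 : X → ℝ≥0∞) (g • w) := osum_le _ _ _
    _ = ∑' g : G, A.indicator (1 : X → ℝ≥0∞) ((σ⁻¹ * g) • w) := tsum_congr e
    _ = ∑' g : G, A.indicator (1 : X → ℝ≥0∞) (g • w) :=
        (Equiv.mulLeft σ⁻¹).tsum_eq (fun g => A.indicator (1 : X → ℝ≥0∞) (g • w))

/-- invariance of the quotient integral under an element that normalises `B` -/
theorem lintegral_qm_smul {F : X → ℝ≥0∞} (hF : Measurable F)
    (hFi : Inv B F) {σ : G} (hσ : ∀ g, g ∈ B ↔ σ * g * σ⁻¹ ∈ B) :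
    ∫⁻ w, F (σ • w) ∂(qm μ K B) = ∫⁻ w, F w ∂(qm μ K B) := by
  have hm : Measurable fun w => F (σ • w) := hF.comp (measurable_const_smul σ)
  have hk := isKernel_kern hK B
  have hk' : IsKernel B (fun w => kern B K (σ⁻¹ • w)) := by
    refine ⟨hk.meas.comp (measurable_const_smul _), fun w => ?_⟩
    rw [← hk.sum_eq (σ⁻¹ • w)]
    unfold osum
    let φ : B ≃ B :=
      { toFun := fun g => ⟨σ * g * σ⁻¹, (hσ _).1 g.2⟩
        invFun := fun g => ⟨σ⁻¹ * g * σ, (hσ _).2 (by simp [mul_assoc])⟩
        left_inv := fun g => by ext; simp [mul_assoc]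
        right_inv := fun g => by ext; simp [mul_assoc] }
    rw [← φ.tsum_eq]
    refine tsum_congr fun g => ?_
    simp [φ, mul_smul]
  rw [lintegral_qm' μ hK hm, lintegral_qm μ hK hF hFi hk',
    ← (measurePreserving_smul σ μ).lintegral_comp (f := fun w => F w * kern B K (σ⁻¹ • w))
      (hF.mul hk'.meas)]
  refine lintegral_congr fun w => ?_
  simp

/-- change of level -/
theorem lintegral_qm_index {B' : Subgroup G} (hle : B' ≤ B) {n : ℕ}
    (hn : (B'.subgroupOf B).index = n) (hn0 : n ≠ 0) {F : X → ℝ≥0∞} (hF : Measurable F)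
    (hFi : Inv B F) :
    ∫⁻ w, F w ∂(qm μ K B') = n * ∫⁻ w, F w ∂(qm μ K B) := by
  have hk := isKernel_kern hK B'
  have h1 : ∀ w, osum B (kern B' K) w = n := by
    intro w
    unfold osum
    set S := B'.subgroupOf B with hS
    rw [← (Equiv.inv B).tsum_eq, ← (cosetEquiv S).tsum_eq, ENNReal.tsum_prod']
    have h2 : ∀ q : B ⧸ S, ∑' s : S, kern B' K (((Equiv.inv B) (cosetEquiv S (q, s)) : G) • w)
        = 1 := by
      intro q
      rw [← hk.sum_eq (((Quotient.out q : B) : G)⁻¹ • w)]
      unfold osum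
      let φ : S ≃ B' :=
        { toFun := fun s => ⟨((s : B) : G)⁻¹, B'.inv_mem s.2⟩
          invFun := fun b => ⟨⟨(b : G)⁻¹, B.inv_mem (hle b.2)⟩, by
            show (b : G)⁻¹ ∈ B'
            exact B'.inv_mem b.2⟩
          left_inv := fun s => by ext; simp
          right_inv := fun s => by ext; simp }
      rw [← φ.tsum_eq]
      refine tsum_congr fun s => ?_
      rw [cosetEquiv_apply]
      simp [φ, mul_smul]
    simp only [h2]
    have hfin : Finite (B ⧸ S) := by
      have : S.FiniteIndex := ⟨by rw [hn]; exact hn0⟩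
      exact Subgroup.finite_quotient_of_finiteIndex
    have : Fintype (B ⧸ S) := Fintype.ofFinite _
    rw [tsum_fintype, Finset.sum_const, Finset.card_univ, ← Nat.card_eq_fintype_card]
    simp [← hn, Subgroup.index]
  have h := swap μ hF hFi (isKernel_kern hK B).meas hk.meas
  simp only [h1, (isKernel_kern hK B).sum_eq, mul_one] at h
  rw [lintegral_qm' μ hK hF, lintegral_qm' μ hK hF, ← h,
    lintegral_mul_const (f := fun w => F w * kern B K w) _ (hF.mul (isKernel_kern hK B).meas),
    mul_comm]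

end qm

end Vale.Agent.P006.H9
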